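import Crest.Agent.R52.GBasic

/-! Embedding pieces of bounded back-degree (dense regime). -/

set_option autoImplicit false
set_option linter.unusedSectionVars false

namespace Crest.Agent.R52

open Finset Crest.Agent.PP Crest.CombinatoricsR.RandomGraph

section up
variable {α : Type} [Fintype α] [DecidableEq α]

def up (𝒰 : Finset (Finset α)) (ω : α → Bool) : Prop := ∃ T ∈ 𝒰, ∀ x ∈ T, ω x = true

noncomputable def mu (p : ℝ) (𝒰 : Finset (Finset α)) : ℝ := Ex (bw p) (fun ω => ind (up 𝒰 ω))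

def VV (p : ℝ) (𝒰 : Finset (Finset α)) (a : α → Bool) : Prop :=
  1 / 2 ≤ Ex (bw p) (fun b => ind (up 𝒰 (fun i => a i || b i)))

lemma up_dep (𝒰 : Finset (Finset α)) : DepOn (up 𝒰) (𝒰.biUnion id) := by
  rintro a b h ⟨T, hT, h2⟩
  exact ⟨T, hT, fun x hx => h x (mem_biUnion.2 ⟨T, hT, hx⟩) ▸ h2 x hx⟩

lemma VV_of {p : ℝ} (h0 : 0 ≤ p) (h1 : p ≤ 1) (𝒰 : Finset (Finset α)) {a b : α → Bool}
    (h : ∀ x ∈ 𝒰.biUnion id, a x = true → b x = true) (ha : VV p 𝒰 a) : VV p 𝒰 b := by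
  refine le_trans ha (Ex_ind_mono (isProb_bw h0 h1) ?_)
  rintro c ⟨T, hT, h2⟩
  refine ⟨T, hT, fun x hx => ?_⟩
  have := h2 x hx
  simp only [Bool.or_eq_true] at this ⊢
  exact this.imp (h x (mem_biUnion.2 ⟨T, hT, hx⟩)) id

lemma VV_dep {p : ℝ} (h0 : 0 ≤ p) (h1 : p ≤ 1) (𝒰 : Finset (Finset α)) :
    DepOn (VV p 𝒰) (𝒰.biUnion id) :=
  fun _ _ h ha => VV_of h0 h1 𝒰 (fun x hx h' => h x hx ▸ h') ha

lemma VV_prob {p : ℝ} (h0 : 0 ≤ p) (h1 : p ≤ 1) (𝒰 : Finset (Finset α)) :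
    Ex (bw p) (fun a => ind (VV p 𝒰 a)) ≤ 2 * mu (p + p - p * p) 𝒰 := by
  have := Ex_markov (isProb_bw h0 h1)
    (F := fun a : α → Bool => Ex (bw p) (fun b => ind (up 𝒰 (fun i => a i || b i))))
    (fun a => Ex_ind_nonneg (isProb_bw h0 h1) _) (a := 1 / 2) (by norm_num)
  unfold mu
  rw [Ex_bw_or]
  unfold VV
  linarith

lemma VV_nonempty {p : ℝ} (h0 : 0 ≤ p) (h1 : p ≤ 1) {𝒰 : Finset (Finset α)} {a : α → Bool}
    (h : VV p 𝒰 a) : 𝒰.Nonempty := by
  by_contra hc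
  rw [not_nonempty_iff_eq_empty.1 hc] at h
  have : Ex (bw p) (fun b : α → Bool => ind (up ∅ (fun i => a i || b i))) ≤ 0 :=
    Ex_le_const (isProb_bw h0 h1) fun b => by rw [ind_neg]; simp [up]
  unfold VV at h; linarith

lemma pow_le_mu {p : ℝ} (h0 : 0 ≤ p) (h1 : p ≤ 1) {𝒰 : Finset (Finset α)} {T : Finset α}
    (hT : T ∈ 𝒰) : p ^ T.card ≤ mu p 𝒰 := by
  rw [← Ex_bw_subset]
  exact Ex_ind_mono (isProb_bw h0 h1) fun ω h => ⟨T, hT, h⟩

lemma sparsify {p η : ℝ} (h0 : 0 ≤ p) (h1 : p ≤ 1) (hη : 0 < η) (𝒯 : Finset (Finset α))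
    (h : ∀ T ∈ 𝒯, η ≤ p ^ T.card) :
    ∃ 𝒰 ⊆ 𝒯, 𝒰.card * η ≤ 2 ∧ ∀ T ∈ 𝒯, VV p 𝒰 (fun i => decide (i ∈ T)) := by
  have hw := isProb_bw h0 h1
  obtain ⟨𝒰, h𝒰, hmax⟩ := exists_max_image 𝒯.powerset (fun 𝒰 => mu p 𝒰 - 𝒰.card * (η / 2))
    ⟨∅, empty_mem_powerset _⟩
  refine ⟨𝒰, mem_powerset.1 h𝒰, ?_, fun T hT => ?_⟩
  · have h2 := hmax ∅ (empty_mem_powerset _)
    have h3 : 0 ≤ mu p (∅ : Finset (Finset α)) := Ex_ind_nonneg hw _
    have h4 : mu p 𝒰 ≤ 1 := Ex_ind_le_one hw _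
    simp only [card_empty, Nat.cast_zero, zero_mul, sub_zero] at h2
    linarith
  · have h2 := hmax (insert T 𝒰) (mem_powerset.2 (insert_subset hT (mem_powerset.1 h𝒰)))
    have h3 : ((insert T 𝒰).card : ℝ) ≤ 𝒰.card + 1 := by exact_mod_cast card_insert_le _ _
    have h4 : mu p (insert T 𝒰) = mu p 𝒰 + p ^ T.card *
        (1 - Ex (bw p) (fun b => ind (up 𝒰 (fun i => decide (i ∈ T) || b i)))) := by
      rw [← Ex_ind_not hw, ← Ex_bw_contains p T (fun ω => ind (¬ up 𝒰 ω))]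
      unfold mu
      rw [← Ex_add]
      congr 1; ext ω
      rw [← ind_and]
      by_cases hu : up 𝒰 ω
      · obtain ⟨S, hS, h5⟩ := hu
        rw [ind_pos ⟨S, mem_insert_of_mem hS, h5⟩, ind_pos ⟨S, hS, h5⟩,
          ind_neg (fun h => h.2 ⟨S, hS, h5⟩), add_zero]
      · rw [ind_neg hu, zero_add]
        refine ind_congr ⟨?_, fun h => ⟨T, mem_insert_self _ _, h.1⟩⟩
        rintro ⟨S, hS, h5⟩
        rcases mem_insert.1 hS with rfl | hS
        · exact ⟨h5, hu⟩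
        · exact absurd ⟨S, hS, h5⟩ hu
    unfold VV
    by_contra hc
    have h5 := h T hT
    nlinarith

lemma mu_image {β : Type} [Fintype β] [DecidableEq β] {p : ℝ} (h0 : 0 ≤ p) (h1 : p ≤ 1)
    (𝒰 : Finset (Finset α)) (A : Finset α) (hA : ∀ T ∈ 𝒰, T ⊆ A) (φ : α → β)
    (hφ : Set.InjOn φ A) : mu p (𝒰.image (image φ)) = mu p 𝒰 := by
  have hw := isProb_bw h0 h1
  let F : (A → Bool) → ℝ := fun k => ind (∃ T ∈ 𝒰, ∀ x : A, x.1 ∈ T → k x = true)
  have e1 := Ex_inj hw (Subtype.val : A → α) Subtype.val_injective F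
  have e2 := Ex_inj hw (fun x : A => φ x) (fun x y h => Subtype.ext (hφ x.2 y.2 h)) F
  unfold mu
  refine Eq.trans ?_ (e2.trans (e1.symm.trans ?_))
  · congr 1; ext ω
    refine ind_congr ⟨?_, ?_⟩
    · rintro ⟨_, hT, h⟩
      obtain ⟨T, hT', rfl⟩ := mem_image.1 hT
      exact ⟨T, hT', fun x hx => h _ (mem_image_of_mem _ hx)⟩
    · rintro ⟨T, hT, h⟩
      refine ⟨_, mem_image_of_mem _ hT, fun y hy => ?_⟩
      obtain ⟨x, hx, rfl⟩ := mem_image.1 hy
      exact h ⟨x, hA T hT hx⟩ hx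
  · congr 1; ext ω
    exact ind_congr ⟨fun ⟨T, hT, h⟩ => ⟨T, hT, fun x hx => h ⟨x, hA T hT hx⟩ hx⟩,
      fun ⟨T, hT, h⟩ => ⟨T, hT, fun x hx => h x hx⟩⟩

lemma card_small_subsets {β : Type} [DecidableEq β] (X : Finset β) (t : ℕ) :
    (X.powerset.filter fun s => s.card ≤ t).card ≤ (X.card + 1) ^ t := by
  have : (X.powerset.filter fun s => s.card ≤ t) = (range (t + 1)).biUnion fun i => powersetCard i X := by
    ext s; simp [mem_powersetCard, and_comm]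
  rw [this, add_pow]
  refine card_biUnion_le.trans (sum_le_sum fun i hi => ?_)
  rw [card_powersetCard, one_pow, mul_one]
  exact (Nat.choose_le_pow _ _).trans (Nat.le_mul_of_pos_right _
    (by simpa using Nat.choose_pos (Nat.lt_succ_iff.1 (mem_range.1 hi))))

/-- small families of small sets -/
def Fam (α : Type) [Fintype α] [DecidableEq α] (t d : ℕ) : Finset (Finset (Finset α)) :=
  ((univ : Finset α).powerset.filter fun s => s.card ≤ d).powerset.filter fun s => s.card ≤ t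

lemma mem_Fam {t d : ℕ} {𝒰 : Finset (Finset α)} :
    𝒰 ∈ Fam α t d ↔ (∀ T ∈ 𝒰, T.card ≤ d) ∧ 𝒰.card ≤ t := by
  simp [Fam, subset_iff]

lemma card_Fam (t d : ℕ) : (Fam α t d).card ≤ ((Fintype.card α + 1) ^ d + 1) ^ t :=
  (card_small_subsets _ _).trans (Nat.pow_le_pow_left (Nat.succ_le_succ
    (by simpa using card_small_subsets (univ : Finset α) d)) _)

lemma card_supp_le {t d : ℕ} {𝒰 : Finset (Finset α)} (h : 𝒰 ∈ Fam α t d) :
    (𝒰.biUnion id).card ≤ t * d :=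
  (card_biUnion_le_card_mul _ _ _ (mem_Fam.1 h).1).trans (Nat.mul_le_mul_right _ (mem_Fam.1 h).2)

end up

lemma layered {W V A : Type} [DecidableEq W] [DecidableEq V] [Nonempty V] (S : Finset W)
    (lay : W → ℕ) (blk : W → A)
    (Bl : A → Finset V) (hBl : ∀ a a', a ≠ a' → Disjoint (Bl a) (Bl a'))
    (hblk : ∀ y ∈ S, ∀ y' ∈ S, blk y = blk y' → lay y = lay y')
    (R : W → (W → V) → V → Prop) [∀ y φ, DecidablePred (R y φ)]
    (hR : ∀ y ∈ S, ∀ φ φ' z, (∀ x ∈ S, lay x < lay y → φ x = φ' x) → R y φ z → R y φ' z)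
    (hall : ∀ j φ, Set.InjOn φ (S.filter fun x => lay x < j) →
      (∀ x ∈ S, lay x < j → φ x ∈ Bl (blk x)) → ∀ Y ⊆ S, (∀ y ∈ Y, lay y = j) →
      Y.card ≤ (Y.biUnion fun y => (Bl (blk y)).filter (R y φ)).card) :
    ∃ φ : W → V, Set.InjOn φ S ∧ ∀ y ∈ S, R y φ (φ y) := by
  classical
  have key : ∀ j, ∃ φ : W → V, Set.InjOn φ (S.filter fun x => lay x < j) ∧
      ∀ y ∈ S, lay y < j → φ y ∈ Bl (blk y) ∧ R y φ (φ y) := by
    intro j
    induction j with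
    | zero => exact ⟨fun _ => Classical.arbitrary V, by simp, by simp⟩
    | succ j ih =>
      obtain ⟨φ, h1, h2⟩ := ih
      obtain ⟨f, hf1, hf2⟩ := (Finset.all_card_le_biUnion_card_iff_exists_injective
        (fun y : {y // y ∈ S ∧ lay y = j} => (Bl (blk y)).filter (R y φ))).1 (fun Y => by
          have := hall j φ h1 (fun x hx h => (h2 x hx h).1) (Y.image Subtype.val)
            (fun y hy => by obtain ⟨y, _, rfl⟩ := mem_image.1 hy; exact y.2.1)
            (fun y hy => by obtain ⟨y, _, rfl⟩ := mem_image.1 hy; exact y.2.2)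
          rwa [card_image_of_injective _ Subtype.val_injective, image_biUnion] at this)
      let φ' : W → V := fun y => if h : y ∈ S ∧ lay y = j then f ⟨y, h⟩ else φ y
      have e1 : ∀ x, lay x < j → φ x = φ' x := fun x hx => by
        simp only [φ']; rw [dif_neg (fun h : x ∈ S ∧ lay x = j => by omega)]
      have e2 : ∀ y ∈ S, lay y < j + 1 → φ' y ∈ Bl (blk y) ∧ R y φ' (φ' y) := by
        intro y hy hj
        by_cases h : lay y = j
        · have := mem_filter.1 (hf2 ⟨y, hy, h⟩)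
          have e : φ' y = f ⟨y, hy, h⟩ := dif_pos _
          rw [e]
          exact ⟨this.1, hR y hy φ φ' _ (fun x _ hx => e1 x (by omega)) this.2⟩
        · rw [← e1 y (by omega)]
          exact ⟨(h2 y hy (by omega)).1,
            hR y hy φ φ' _ (fun x _ hx => e1 x (by omega)) (h2 y hy (by omega)).2⟩
      refine ⟨φ', fun y hy y' hy' h => ?_, e2⟩
      simp only [coe_filter, Set.mem_ofPred_eq] at hy hy'
      have hb : blk y = blk y' := by
        by_contra hc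
        exact disjoint_left.1 (hBl _ _ hc) (e2 y hy.1 hy.2).1 (h ▸ (e2 y' hy'.1 hy'.2).1)
      have hl := hblk y hy.1 y' hy'.1 hb
      by_cases hj : lay y = j
      · have e3 : φ' y = f ⟨y, hy.1, hj⟩ := dif_pos _
        have e4 : φ' y' = f ⟨y', hy'.1, hl ▸ hj⟩ := dif_pos _
        rw [e3, e4] at h
        exact congrArg Subtype.val (hf1 h)
      · rw [← e1 y (by omega), ← e1 y' (by omega)] at h
        exact h1 (mem_coe.2 (mem_filter.2 ⟨hy.1, by omega⟩))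
          (mem_coe.2 (mem_filter.2 ⟨hy'.1, by omega⟩)) h
  obtain ⟨φ, h1, h2⟩ := key (S.sup lay + 1)
  have hl : ∀ y ∈ S, lay y < S.sup lay + 1 := fun y hy => Nat.lt_succ_of_le (le_sup hy)
  exact ⟨φ, fun y hy y' hy' h => h1 (mem_coe.2 (mem_filter.2 ⟨hy, hl y hy⟩))
    (mem_coe.2 (mem_filter.2 ⟨hy', hl y' hy'⟩)) h, fun y hy => (h2 y hy (hl y hy)).2⟩

variable {n : ℕ}

/-- upper typicality -/
def UT (p u : ℝ) (t d : ℕ) (ω : EdgeSlot n → Bool) : Prop :=
  ∀ 𝒰 ∈ Fam (Fin n) t d, ∑ z, ind (VV p 𝒰 (adj ω z)) ≤ 4 * n * mu (p + p - p * p) 𝒰 + u + t * d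

lemma UT_prob {p : ℝ} (h0 : 0 ≤ p) (h1 : p ≤ 1) (u : ℝ) (t d : ℕ) :
    1 - (Fam (Fin n) t d).card * Real.exp (-u) ≤
      Ex (bw p) (fun ω : EdgeSlot n → Bool => ind (UT p u t d ω)) := by
  have hw := isProb_bw h0 h1
  have h2 := Ex_union hw (Fam (Fin n) t d) (fun 𝒰 (ω : EdgeSlot n → Bool) =>
    4 * n * mu (p + p - p * p) 𝒰 + u ≤ ∑ z ∈ (𝒰.biUnion id)ᶜ, ind (VV p 𝒰 (adj ω z)))
  have h3 : ∀ 𝒰 ∈ Fam (Fin n) t d, Ex (bw p) (fun ω : EdgeSlot n → Bool => ind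
      (4 * n * mu (p + p - p * p) 𝒰 + u ≤ ∑ z ∈ (𝒰.biUnion id)ᶜ, ind (VV p 𝒰 (adj ω z)))) ≤
      Real.exp (-u) := by
    intro 𝒰 _
    refine (nbhd_upper h0 h1 _ _ disjoint_compl_left _ (VV_dep h0 h1 𝒰) _).trans
      (Real.exp_le_exp.2 ?_)
    have e1 := VV_prob h0 h1 𝒰
    have e2 : (((𝒰.biUnion id)ᶜ).card : ℝ) ≤ n := by
      exact_mod_cast (card_le_univ _).trans (Fintype.card_fin n).le
    have e3 := Ex_ind_nonneg hw (VV p 𝒰)
    have e4 : (((𝒰.biUnion id)ᶜ).card : ℝ) * Ex (bw p) (fun a => ind (VV p 𝒰 a)) ≤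
        n * (2 * mu (p + p - p * p) 𝒰) := mul_le_mul e2 e1 e3 (by positivity)
    linarith
  have h4 := h2.trans (sum_le_sum h3)
  rw [sum_const, nsmul_eq_mul] at h4
  have h5 := Ex_ind_not hw (fun ω : EdgeSlot n → Bool => UT p u t d ω)
  have h6 := Ex_ind_mono hw (P := fun ω : EdgeSlot n → Bool => ¬ UT p u t d ω)
    (Q := fun ω => ∃ 𝒰 ∈ Fam (Fin n) t d, 4 * n * mu (p + p - p * p) 𝒰 + u ≤
      ∑ z ∈ (𝒰.biUnion id)ᶜ, ind (VV p 𝒰 (adj ω z))) fun ω h => by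
      unfold UT at h; push Not at h
      obtain ⟨𝒰, h𝒰, h⟩ := h
      refine ⟨𝒰, h𝒰, ?_⟩
      rw [← sum_add_sum_compl (𝒰.biUnion id)] at h
      have e1 : ∑ z ∈ 𝒰.biUnion id, ind (VV p 𝒰 (adj ω z)) ≤ (𝒰.biUnion id).card := by
        rw [card_eq_sum_ones]; push_cast; exact sum_le_sum fun _ _ => ind_le_one _
      have e2 : ((𝒰.biUnion id).card : ℝ) ≤ t * d := by exact_mod_cast card_supp_le h𝒰
      linarith
  linarith

/-- lower typicality -/
def LT {A : Type} (Bl : A → Finset (Fin n)) (p η : ℝ) (s t d : ℕ) (ω : EdgeSlot n → Bool) : Prop :=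
  ∀ a, ∀ 𝒰 ∈ Fam (Fin n) t d, Disjoint (Bl a) (𝒰.biUnion id) → η ≤ mu p 𝒰 →
    s * mu p 𝒰 / 4 ≤ ∑ z ∈ Bl a, ind (up 𝒰 (adj ω z))

lemma LT_prob {A : Type} [Fintype A] (Bl : A → Finset (Fin n)) {p : ℝ} (h0 : 0 ≤ p) (h1 : p ≤ 1)
    (η : ℝ) (s t d : ℕ) (hs : ∀ a, (Bl a).card = s) :
    1 - Fintype.card A * (Fam (Fin n) t d).card * Real.exp (-(s * η / 4)) ≤
      Ex (bw p) (fun ω : EdgeSlot n → Bool => ind (LT Bl p η s t d ω)) := by
  have hw := isProb_bw h0 h1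
  let P : A × Finset (Finset (Fin n)) → (EdgeSlot n → Bool) → Prop := fun k ω =>
    Disjoint (Bl k.1) (k.2.biUnion id) ∧ η ≤ mu p k.2 ∧
      ∑ z ∈ Bl k.1, ind (up k.2 (adj ω z)) ≤ s * mu p k.2 / 4
  have h2 := Ex_union hw (univ ×ˢ Fam (Fin n) t d) P
  have h3 : ∀ k ∈ (univ : Finset A) ×ˢ Fam (Fin n) t d,
      Ex (bw p) (fun ω => ind (P k ω)) ≤ Real.exp (-(s * η / 4)) := by
    intro k _
    by_cases hk : Disjoint (Bl k.1) (k.2.biUnion id) ∧ η ≤ mu p k.2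
    · refine (Ex_ind_mono hw fun ω h => h.2.2).trans
        ((nbhd_lower h0 h1 _ _ hk.1 _ (up_dep k.2) _).trans (Real.exp_le_exp.2 ?_))
      rw [hs]
      have := mul_le_mul_of_nonneg_left hk.2 (Nat.cast_nonneg (α := ℝ) s)
      unfold mu at this ⊢
      linarith
    · exact Ex_le_const hw fun ω => by
        rw [ind_neg fun h => hk ⟨h.1, h.2.1⟩]; exact (Real.exp_pos _).le
  have h4 := h2.trans (sum_le_sum h3)
  rw [sum_const, nsmul_eq_mul, card_product, card_univ] at h4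
  push_cast at h4
  have h5 := Ex_ind_not hw (fun ω : EdgeSlot n → Bool => LT Bl p η s t d ω)
  have h6 := Ex_ind_mono hw (P := fun ω : EdgeSlot n → Bool => ¬ LT Bl p η s t d ω)
    (Q := fun ω => ∃ k ∈ univ ×ˢ Fam (Fin n) t d, P k ω) fun ω h => by
      unfold LT at h; push Not at h
      obtain ⟨a, 𝒰, h𝒰, h1, h2, h3⟩ := h
      exact ⟨(a, 𝒰), mem_product.2 ⟨mem_univ _, h𝒰⟩, h1, h2, h3.le⟩
  linarith

lemma sigma_exists {W Λ β : Type} [Fintype W] [DecidableEq W] [Fintype Λ] [DecidableEq Λ]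
    [Nonempty Λ] (I : Finset β) (Z : β → Finset W) (back : W → Finset W)
    (hb : ∀ y, y ∉ back y) (d' : ℕ) (hd : ∀ y, (back y).card ≤ d') (u : ℝ)
    (h : I.card * Fintype.card Λ * Real.exp (-u) +
      Fintype.card W * ((d' : ℝ) / Fintype.card Λ) ^ 6 < 1) :
    ∃ σ : W → Λ, (∀ i ∈ I, ∀ j, (((Z i).filter fun y => σ y = j).card : ℝ) ≤
      2 * (Z i).card / Fintype.card Λ + u) ∧
      ∀ y, ((back y).filter fun x => σ x = σ y).card ≤ 5 := by
  classical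
  set m : ℝ := (Fintype.card Λ : ℝ) with hm
  have hm0 : 0 < m := by rw [hm]; exact_mod_cast Fintype.card_pos
  let w : Λ → ℝ := fun _ => 1 / m
  have hw : IsProb w := ⟨fun _ => by positivity, by simp [w, ← hm, hm0.ne']⟩
  have hw1 : ∀ j, ∑ k, w k * ind (k = j) = 1 / m := by
    intro j
    rw [sum_eq_single j (fun k _ hk => by rw [ind_neg hk, mul_zero]) (by simp), ind_pos rfl, mul_one]
  let P : β × Λ → (W → Λ) → Prop := fun k σ =>
    2 * (Z k.1).card / m + u ≤ ∑ y ∈ Z k.1, ind (σ y = k.2)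
  have hP : Ex w (fun σ => ind (∃ k ∈ I ×ˢ univ, P k σ)) ≤ I.card * m * Real.exp (-u) := by
    refine (Ex_union hw _ P).trans ((sum_le_sum (g := fun _ => Real.exp (-u)) fun k _ => ?_).trans
      (le_of_eq ?_))
    · refine (chernoff_upper hw (Z k.1) (fun _ l => l = k.2) _).trans (le_of_eq ?_)
      simp only [hw1, sum_const, nsmul_eq_mul]
      congr 1; ring
    · rw [sum_const, nsmul_eq_mul, card_product, card_univ]; push_cast; rfl
  let Q : W → (W → Λ) → Prop := fun y σ =>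
    ∃ k ∈ powersetCard 6 (back y) ×ˢ (univ : Finset Λ), ∀ x ∈ insert y k.1, σ x = k.2
  have hQ : Ex w (fun σ => ind (∃ y ∈ univ, Q y σ)) ≤ Fintype.card W * ((d' : ℝ) / m) ^ 6 := by
    refine (Ex_union hw _ Q).trans ((sum_le_sum (g := fun _ => ((d' : ℝ) / m) ^ 6)
      fun y _ => ?_).trans (le_of_eq (by simp)))
    refine (Ex_union hw _ _).trans ((sum_le_sum (g := fun _ => (1 / m) ^ 7) fun k hk => ?_).trans ?_)
    · simp only [ind_forall]
      rw [Ex_prod_on hw _ (fun _ l => ind (l = k.2))]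
      obtain ⟨h1, h2⟩ := mem_powersetCard.1 (mem_product.1 hk).1
      simp only [hw1, prod_const]
      rw [card_insert_of_notMem (fun h => hb y (h1 h)), h2]
    · rw [sum_const, nsmul_eq_mul, card_product, card_univ, card_powersetCard]
      push_cast
      have : (((back y).card.choose 6 : ℕ) : ℝ) ≤ d' ^ 6 := by
        exact_mod_cast (Nat.choose_le_pow _ _).trans (Nat.pow_le_pow_left (hd y) _)
      rw [← hm]
      calc _ ≤ (d' : ℝ) ^ 6 * m * (1 / m) ^ 7 := by gcongr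
        _ = _ := by field_simp
  obtain ⟨σ, hσ⟩ := exists_of_Ex_lt_one hw _ (((Ex_or hw _ _).trans (add_le_add hP hQ)).trans_lt h)
  rw [not_or] at hσ
  refine ⟨σ, fun i hi j => ?_, fun y => ?_⟩
  · by_contra hc
    refine hσ.1 ⟨(i, j), mem_product.2 ⟨hi, mem_univ _⟩, ?_⟩
    simp only [P]
    rw [← card_filter_eq_sum_ind]
    exact (not_le.1 hc).le
  · by_contra hc
    obtain ⟨T, hT, hTc⟩ := exists_subset_card_eq (show 6 ≤ _ from not_le.1 hc)
    refine hσ.2 ⟨y, mem_univ _, (T, σ y), mem_product.2 ⟨mem_powersetCard.2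
      ⟨hT.trans (filter_subset _ _), hTc⟩, mem_univ _⟩, fun x hx => ?_⟩
    rcases mem_insert.1 hx with rfl | hx
    · rfl
    · exact (mem_filter.1 (hT hx)).2

open Classical in
theorem dense_piece {W : Type} [Fintype W] [DecidableEq W] (hW : Fintype.card W ≤ n) (hn : 0 < n)
    {M s t d : ℕ} {p η u : ℝ} (h0 : 0 ≤ p) (h1 : p ≤ 1) (hη : 0 < η) (hηp : η ≤ p ^ d)
    (hηt : 2 ≤ t * η) (hM : 0 < M) (hns : n ≤ 4 * M * s) (hu : u ≤ n * η / (256 * M))
    (htd : (t * d : ℝ) ≤ n * η)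
    (ψ : W → Fin n) (hψ : Function.Injective ψ) (ω₀ : EdgeSlot n → Bool) (hω₀ : UT p u t d ω₀)
    (σ : W → Fin M × Fin 256)
    (hσ : ∀ 𝒰 ∈ Fam (Fin n) t d, ∀ j,
      (((univ.filter fun y => VV p 𝒰 (adj ω₀ (ψ y))).filter fun y => σ y = j).card : ℝ) ≤
        2 * (univ.filter fun y => VV p 𝒰 (adj ω₀ (ψ y))).card / (256 * M) + u)
    (E : W → W → Prop) (hE : ∀ y x, E y x → adj ω₀ (ψ y) (ψ x) = true)
    (lay : W → ℕ) (hlay : ∀ y y', lay y = lay y' ↔ σ y = σ y') (hEl : ∀ y x, E y x → lay x < lay y)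
    (c₁ c₂ : Fin 256) (hc : ∀ y x, E y x → (σ y).2 = c₁ ∧ (σ x).2 = c₂)
    (hd : ∀ y, (univ.filter fun x => E y x).card ≤ d)
    (Bl : Fin M × Bool → Finset (Fin n)) (hBl : ∀ a a', a ≠ a' → Disjoint (Bl a) (Bl a'))
    (ω : EdgeSlot n → Bool) (hω : LT Bl (p + p - p * p) η s t d ω) : Emb E ω := by
  have : Nonempty (Fin n) := ⟨⟨0, hn⟩⟩
  set p₂ := p + p - p * p with hp₂
  have hpp : p ≤ p₂ := by nlinarith
  have h20 : 0 ≤ p₂ := h0.trans hpp
  have h21 : p₂ ≤ 1 := by nlinarith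
  let S : Finset W := univ.filter fun y => (σ y).2 = c₁ ∨ (σ y).2 = c₂
  let T : W → Finset W := fun y => univ.filter fun x => E y x
  let blk : W → Fin M × Bool := fun y => ((σ y).1, decide ((σ y).2 = c₁))
  have hS : ∀ y x, E y x → y ∈ S ∧ x ∈ S := fun y x h =>
    ⟨mem_filter.2 ⟨mem_univ _, Or.inl (hc y x h).1⟩, mem_filter.2 ⟨mem_univ _, Or.inr (hc y x h).2⟩⟩
  have hblk : ∀ y ∈ S, ∀ y' ∈ S, blk y = blk y' → lay y = lay y' := by
    intro y hy y' hy' h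
    rw [hlay]
    simp only [blk, Prod.mk.injEq, decide_eq_decide] at h
    have e1 := (mem_filter.1 hy).2
    have e2 := (mem_filter.1 hy').2
    refine Prod.ext h.1 ?_
    by_cases e : (σ y).2 = c₁
    · rw [e, h.2.1 e]
    · rw [e1.resolve_left e, e2.resolve_left (fun h' => e (h.2.2 h'))]
  obtain ⟨φ, hφ, hR⟩ := layered S lay blk Bl hBl hblk
    (fun y φ z => ∀ x, E y x → adj ω z (φ x) = true)
    (fun y _ φ φ' z h hz x hx => h x (hS y x hx).2 (hEl y x hx) ▸ hz x hx) (by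
      intro j φ hinj hin Y hYS hYj
      rcases Y.eq_empty_or_nonempty with rfl | ⟨y₀, hy₀⟩
      · simp
      have hσY : ∀ y ∈ Y, σ y = σ y₀ := fun y hy => (hlay _ _).1 (by rw [hYj y hy, hYj y₀ hy₀])
      have hcard : ∀ y, ((T y).image ψ).card ≤ d := fun y => card_image_le.trans (hd y)
      obtain ⟨𝒰, h𝒰, h𝒰c, h𝒰V⟩ := sparsify h0 h1 hη (Y.image fun y => (T y).image ψ)
        (fun T' hT' => by
          obtain ⟨y, _, rfl⟩ := mem_image.1 hT'
          exact hηp.trans (pow_le_pow_of_le_one h0 h1 (hcard y)))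
      have h𝒰t : 𝒰.card ≤ t := by
        have : (𝒰.card : ℝ) ≤ t := le_of_mul_le_mul_right (h𝒰c.trans hηt) hη
        exact_mod_cast this
      have h𝒰F : 𝒰 ∈ Fam (Fin n) t d := mem_Fam.2 ⟨fun T' hT' => by
        obtain ⟨y, _, rfl⟩ := mem_image.1 (h𝒰 hT'); exact hcard y, h𝒰t⟩
      set μ := mu p₂ 𝒰 with hμ
      have hημ : η ≤ μ := by
        obtain ⟨T', hT'⟩ := VV_nonempty h0 h1 (h𝒰V _ (mem_image_of_mem _ hy₀))
        refine le_trans (hηp.trans ?_) (pow_le_mu h20 h21 hT')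
        exact (pow_le_pow_of_le_one h0 h1 ((mem_Fam.1 h𝒰F).1 _ hT')).trans
          (pow_le_pow_left₀ h0 hpp _)
      set Z := univ.filter fun y => VV p 𝒰 (adj ω₀ (ψ y)) with hZ
      have hYZ : Y ⊆ Z.filter fun y => σ y = σ y₀ := fun y hy =>
        mem_filter.2 ⟨mem_filter.2 ⟨mem_univ _, VV_of h0 h1 𝒰 (fun x _ hx => by
          obtain ⟨x', hx', rfl⟩ := mem_image.1 (of_decide_eq_true hx)
          exact hE y x' (mem_filter.1 hx').2) (h𝒰V _ (mem_image_of_mem _ hy))⟩, hσY y hy⟩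
      have hZc : (Z.card : ℝ) ≤ 4 * n * μ + u + t * d := by
        refine le_trans ?_ (hω₀ 𝒰 h𝒰F)
        rw [← card_filter_eq_sum_ind]
        exact_mod_cast card_le_card_of_injOn ψ (fun y hy => by simpa [hZ] using hy) hψ.injOn
      have hload : (Y.card : ℝ) ≤ s * μ / 4 := by
        have e1 : (Y.card : ℝ) ≤ _ := (Nat.cast_le.2 (card_le_card hYZ)).trans (hσ 𝒰 h𝒰F (σ y₀))
        have hM1 : (1:ℝ) ≤ M := by exact_mod_cast hM
        have hn0 : (0:ℝ) ≤ n := by positivity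
        have e2 : n * η ≤ n * μ := mul_le_mul_of_nonneg_left hημ hn0
        have e3 : u ≤ n * μ / (256 * M) := hu.trans (by gcongr)
        have e4 : n * μ / (256 * M) ≤ n * μ := div_le_self (by nlinarith) (by linarith)
        have e5 : 2 * (Z.card : ℝ) / (256 * M) ≤ 12 * (n * μ / (256 * M)) := by
          rw [← mul_div_assoc]
          exact div_le_div_of_nonneg_right (by linarith) (by positivity)
        have e6 : (n : ℝ) ≤ 4 * M * s := by exact_mod_cast hns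
        have e7 : n * μ / (256 * M) ≤ s * μ / 64 := by
          rw [div_le_div_iff₀ (by positivity) (by norm_num)]
          have := mul_le_mul_of_nonneg_right e6 (hη.le.trans hημ)
          nlinarith
        have e8 : 0 ≤ s * μ := mul_nonneg (by positivity) (hη.le.trans hημ)
        linarith
      -- pull back
      let 𝒰W : Finset (Finset W) := (Y.image T).filter fun T' => T'.image ψ ∈ 𝒰
      have hWA : ∀ T' ∈ 𝒰W, T' ⊆ S.filter fun x => lay x < j := by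
        intro T' hT' x hx
        obtain ⟨y, hy, rfl⟩ := mem_image.1 (mem_filter.1 hT').1
        have := (mem_filter.1 hx).2
        exact mem_filter.2 ⟨(hS y x this).2, hYj y hy ▸ hEl y x this⟩
      have hWψ : 𝒰W.image (image ψ) = 𝒰 := by
        ext T'
        constructor
        · intro h
          obtain ⟨T'', h', rfl⟩ := mem_image.1 h
          exact (mem_filter.1 h').2
        · intro h
          obtain ⟨y, hy, rfl⟩ := mem_image.1 (h𝒰 h)
          exact mem_image_of_mem _ (mem_filter.2 ⟨mem_image_of_mem _ hy, h⟩)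
      have hμφ : mu p₂ (𝒰W.image (image φ)) = μ := by
        rw [mu_image h20 h21 𝒰W _ hWA φ hinj, hμ, ← hWψ,
          mu_image h20 h21 𝒰W _ hWA ψ hψ.injOn]
      have hφF : 𝒰W.image (image φ) ∈ Fam (Fin n) t d := by
        refine mem_Fam.2 ⟨fun T' hT' => ?_, card_image_le.trans ?_⟩
        · obtain ⟨T'', h, rfl⟩ := mem_image.1 hT'
          obtain ⟨y, _, rfl⟩ := mem_image.1 (mem_filter.1 h).1
          exact card_image_le.trans (hd y)
        · rw [← card_image_of_injective 𝒰W (image_injective hψ), hWψ]; exact h𝒰t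
      have hlow := hω (blk y₀) _ hφF (disjoint_left.2 fun z hz hz' => by
        obtain ⟨T', hT', hz'⟩ := mem_biUnion.1 hz'
        obtain ⟨T'', h, rfl⟩ := mem_image.1 hT'
        obtain ⟨x, hx, rfl⟩ := mem_image.1 hz'
        obtain ⟨hxS, hxj⟩ := mem_filter.1 (hWA T'' h hx)
        refine disjoint_left.1 (hBl (blk x) (blk y₀) fun e => ?_) (hin x hxS hxj) hz
        have := hblk x hxS y₀ (hYS hy₀) e
        have := hYj y₀ hy₀
        omega) (hμφ ▸ hημ)
      rw [hμφ, ← card_filter_eq_sum_ind] at hlow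
      refine Nat.cast_le.1 ((hload.trans hlow).trans (Nat.cast_le.2 (card_le_card fun z hz => ?_)))
      obtain ⟨hz1, T', hT', hz2⟩ := mem_filter.1 hz
      obtain ⟨T'', h, rfl⟩ := mem_image.1 hT'
      obtain ⟨y, hy, rfl⟩ := mem_image.1 (mem_filter.1 h).1
      refine mem_biUnion.2 ⟨y, hy, mem_filter.2 ⟨?_, fun x hx =>
        hz2 _ (mem_image_of_mem _ (mem_filter.2 ⟨mem_univ _, hx⟩))⟩⟩
      simp only [blk, hσY y hy]; exact hz1)
  exact emb_of_injOn hW S hS φ hφ fun y x h => hR y (hS y x h).1 x h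

end Crest.Agent.R52
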