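import Crest.Agent.R52.Convex
import Crest.Prelude.Def_CopyThreshold

/-! Basic random graph lemmas. -/

set_option autoImplicit false
set_option linter.unusedSectionVars false

namespace Crest.Agent.R52

open Finset Crest.Agent.PP Crest.CombinatoricsR.RandomGraph

variable {n : ℕ}

/-- slot of a pair of distinct vertices -/
def slot (u v : Fin n) (h : u ≠ v) : EdgeSlot n := ⟨s(u, v), by simpa using h⟩

/-- Boolean adjacency -/
def adj (ω : EdgeSlot n → Bool) (u v : Fin n) : Bool := if h : u ≠ v then ω (slot u v h) else false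

lemma adj_eq (ω : EdgeSlot n → Bool) {u v : Fin n} (h : u ≠ v) : adj ω u v = ω (slot u v h) :=
  dif_pos h

lemma adj_iff (ω : EdgeSlot n → Bool) (u v : Fin n) : adj ω u v = true ↔ (graphOf ω).Adj u v := by
  unfold graphOf
  rw [SimpleGraph.fromEdgeSet_adj]
  constructor
  · intro h
    by_cases huv : u ≠ v
    · rw [adj_eq ω huv] at h; exact ⟨⟨_, h⟩, huv⟩
    · simp [adj, huv] at h
  · rintro ⟨⟨_, h⟩, huv⟩
    rw [adj_eq ω huv]; exact h

lemma adj_symm {ω : EdgeSlot n → Bool} {u v : Fin n} (h : adj ω u v = true) : adj ω v u = true :=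
  (adj_iff ω v u).2 ((adj_iff ω u v).1 h).symm

lemma adj_mono {a b : EdgeSlot n → Bool} (h : ∀ i, a i = true → b i = true) {u v : Fin n}
    (h1 : adj a u v = true) : adj b u v = true := by
  by_cases huv : u ≠ v
  · rw [adj_eq _ huv] at h1 ⊢; exact h _ h1
  · simp [adj, huv] at h1

lemma gnpProb_eq (p : ℝ) (E : Set (SimpleGraph (Fin n))) :
    gnpProb n p E = Ex (bw p) (fun ω => ind (graphOf ω ∈ E)) := by
  classical
  unfold gnpProb Crest.FinProb.bernoulliProb Ex
  rw [sum_filter]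
  refine sum_congr rfl fun ω _ => ?_
  beta_reduce
  by_cases h : graphOf ω ∈ E
  · rw [ind_pos h, mul_one, if_pos (by exact h)]; rfl
  · rw [ind_neg h, mul_zero, if_neg (by exact h)]

/-- the relation `E` on `W` embeds in the graph of `ω` -/
def Emb {W : Type} (E : W → W → Prop) (ω : EdgeSlot n → Bool) : Prop :=
  ∃ φ : W → Fin n, Function.Injective φ ∧ ∀ y x, E y x → adj ω (φ y) (φ x) = true

/-- probability of embedding -/
noncomputable def PE (n : ℕ) (p : ℝ) {W : Type} (E : W → W → Prop) : ℝ :=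
  Ex (bw p) (fun ω : EdgeSlot n → Bool => ind (Emb E ω))

lemma PE_mono {W : Type} (E : W → W → Prop) {p p' : ℝ} (h0 : 0 ≤ p) (h : p ≤ p') (h1 : p' ≤ 1) :
    PE n p E ≤ PE n p' E :=
  Ex_bw_mono h0 h h1 _ fun _ _ hab => ind_mono fun ⟨φ, h1, h2⟩ =>
    ⟨φ, h1, fun y x h => adj_mono hab (h2 y x h)⟩

lemma PE_one {W : Type} [Fintype W] (hW : Fintype.card W ≤ n) (E : W → W → Prop)
    (hE : ∀ y x, E y x → y ≠ x) : 1 ≤ PE n 1 E := by
  obtain ⟨φ⟩ : Nonempty (W ↪ Fin n) := Function.Embedding.nonempty_of_card_le (by simpa using hW)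
  have := Ex_bw_subset (ι := EdgeSlot n) 1 univ
  rw [one_pow] at this
  refine this.ge.trans (Ex_ind_mono (isProb_bw zero_le_one le_rfl) fun ω hω =>
    ⟨φ, φ.injective, fun y x h => ?_⟩)
  rw [adj_eq _ (φ.injective.ne (hE y x h))]
  exact hω _ (mem_univ _)

lemma exists_extend {W V : Type} [Fintype W] [Fintype V] (hW : Fintype.card W ≤ Fintype.card V)
    (S : Finset W) (φ : W → V) (hφ : Set.InjOn φ S) :
    ∃ ψ : W → V, Function.Injective ψ ∧ ∀ x ∈ S, ψ x = φ x := by
  classical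
  obtain ⟨t, ht, htc⟩ := exists_subsuperset_card_eq (subset_univ (S.image φ))
    (card_image_le.trans (card_le_univ S)) (n := Fintype.card W) (by simpa using hW)
  obtain ⟨g, hg⟩ := Finset.exists_equiv_extend_of_card_eq htc.2.symm ht hφ
  exact ⟨fun x => g x, Subtype.val_injective.comp g.injective, hg⟩

lemma emb_of_injOn {W : Type} [Fintype W] (hW : Fintype.card W ≤ n) {E : W → W → Prop}
    {ω : EdgeSlot n → Bool} (S : Finset W) (hS : ∀ y x, E y x → y ∈ S ∧ x ∈ S) (φ : W → Fin n)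
    (hφ : Set.InjOn φ S) (h : ∀ y x, E y x → adj ω (φ y) (φ x) = true) : Emb E ω := by
  obtain ⟨ψ, h1, h2⟩ := exists_extend (by simpa using hW) S φ hφ
  exact ⟨ψ, h1, fun y x hE => by rw [h2 y (hS y x hE).1, h2 x (hS y x hE).2]; exact h y x hE⟩

/-- neighbourhoods of distinct vertices into a disjoint set are independent -/
lemma Ex_nbhd {p : ℝ} (h0 : 0 ≤ p) (h1 : p ≤ 1) {ι β : Type} [Fintype ι] [DecidableEq ι]
    [Fintype β] [DecidableEq β] (z : ι → Fin n) (a : β → Fin n) (hz : Function.Injective z)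
    (ha : Function.Injective a) (hza : ∀ i j, z i ≠ a j) (F : (ι → β → Bool) → ℝ) :
    Ex (bw p) (fun ω : EdgeSlot n → Bool => F (fun i j => adj ω (z i) (a j))) =
      Ex (wt (bw p) : (β → Bool) → ℝ) F := by
  rw [← Ex_curry, ← Ex_inj (isProb_bw h0 h1) (fun k : ι × β => slot (z k.1) (a k.2) (hza _ _))]
  · congr 1; ext ω; congr 1; ext i j; exact adj_eq _ _
  · rintro ⟨i, j⟩ ⟨i', j'⟩ h
    have h' : s(z i, a j) = s(z i', a j') := congrArg Subtype.val h
    rcases Sym2.eq_iff.1 h' with ⟨h1, h2⟩ | ⟨h1, _⟩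
    · rw [hz h1, ha h2]
    · exact absurd h1 (hza _ _)

/-- `Q` depends only on coordinates in `A` -/
def DepOn {V : Type} (Q : (V → Bool) → Prop) (A : Finset V) : Prop :=
  ∀ a b, (∀ x ∈ A, a x = b x) → Q a → Q b

lemma nbhd_setup {p : ℝ} (h0 : 0 ≤ p) (h1 : p ≤ 1) (A Z : Finset (Fin n)) (hAZ : Disjoint Z A)
    (Q : (Fin n → Bool) → Prop) (hQ : DepOn Q A) :
    ∃ Q' : (A → Bool) → Prop, (∑ k, wt (bw p) k * ind (Q' k) = Ex (bw p) (fun a => ind (Q a))) ∧
      ∀ F : ℝ → ℝ, Ex (bw p) (fun ω : EdgeSlot n → Bool => F (∑ z ∈ Z, ind (Q (adj ω z)))) =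
        Ex (wt (bw p) : (A → Bool) → ℝ) (fun ξ : Z → A → Bool => F (∑ z, ind (Q' (ξ z)))) := by
  classical
  let ext : (A → Bool) → (Fin n → Bool) := fun k x => if h : x ∈ A then k ⟨x, h⟩ else false
  have hext : ∀ a : Fin n → Bool, Q (ext (fun x => a x)) ↔ Q a :=
    fun a => ⟨hQ _ _ (fun x hx => by simp [ext, hx]), hQ _ _ (fun x hx => by simp [ext, hx])⟩
  refine ⟨fun k => Q (ext k), ?_, fun F => ?_⟩
  · have := Ex_inj (isProb_bw h0 h1) (Subtype.val : A → Fin n) Subtype.val_injective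
      (fun k => ind (Q (ext k)))
    refine Eq.trans this.symm ?_
    congr 1; ext a; exact ind_congr (hext a)
  · rw [← Ex_nbhd h0 h1 (Subtype.val : Z → Fin n) (Subtype.val : A → Fin n) Subtype.val_injective
      Subtype.val_injective (fun i j h => disjoint_left.1 hAZ i.2 (h ▸ j.2))]
    congr 1; ext ω; congr 1
    rw [← sum_coe_sort Z]
    exact sum_congr rfl fun z _ => ind_congr (hext _).symm

lemma nbhd_upper {p : ℝ} (h0 : 0 ≤ p) (h1 : p ≤ 1) (A Z : Finset (Fin n)) (hAZ : Disjoint Z A)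
    (Q : (Fin n → Bool) → Prop) (hQ : DepOn Q A) (c : ℝ) :
    Ex (bw p) (fun ω : EdgeSlot n → Bool => ind (c ≤ ∑ z ∈ Z, ind (Q (adj ω z)))) ≤
      Real.exp (2 * (Z.card * Ex (bw p) (fun a => ind (Q a))) - c) := by
  classical
  obtain ⟨Q', e1, e2⟩ := nbhd_setup h0 h1 A Z hAZ Q hQ
  rw [e2 (fun t => ind (c ≤ t))]
  have := chernoff_upper (isProb_wt (ι := A) (isProb_bw h0 h1)) (univ : Finset Z) (fun _ => Q') c
  simpa [e1] using this

lemma nbhd_lower {p : ℝ} (h0 : 0 ≤ p) (h1 : p ≤ 1) (A Z : Finset (Fin n)) (hAZ : Disjoint Z A)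
    (Q : (Fin n → Bool) → Prop) (hQ : DepOn Q A) (c : ℝ) :
    Ex (bw p) (fun ω : EdgeSlot n → Bool => ind (∑ z ∈ Z, ind (Q (adj ω z)) ≤ c)) ≤
      Real.exp (c - (Z.card * Ex (bw p) (fun a => ind (Q a))) / 2) := by
  classical
  obtain ⟨Q', e1, e2⟩ := nbhd_setup h0 h1 A Z hAZ Q hQ
  rw [e2 (fun t => ind (t ≤ c))]
  have := chernoff_lower (isProb_wt (ι := A) (isProb_bw h0 h1)) (univ : Finset Z) (fun _ => Q') c
  simpa [e1] using this

/-! first moment bounds -/

open Classical in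
/-- edge sets containing a copy of `H` -/
noncomputable def FH (n : ℕ) {W : Type} (H : SimpleGraph W) : Finset (Finset (EdgeSlot n)) :=
  univ.filter fun A => H.IsContained (edgeGraph A)

lemma mem_FH {W : Type} {H : SimpleGraph W} {A : Finset (EdgeSlot n)} :
    A ∈ FH n H ↔ ∃ φ : W → Fin n, ∃ hφ : Function.Injective φ,
      ∀ y x, ∀ h : H.Adj y x, slot (φ y) (φ x) (hφ.ne h.ne) ∈ A := by
  simp only [FH, mem_filter, mem_univ, true_and]
  constructor
  · rintro ⟨c⟩
    refine ⟨c, c.injective, fun y x h => ?_⟩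
    have := c.toHom.map_adj h
    unfold edgeGraph at this
    rw [SimpleGraph.fromEdgeSet_adj] at this
    exact this.1.2
  · rintro ⟨φ, hφ, h⟩
    refine ⟨⟨⟨φ, fun {y x} hyx => ?_⟩, hφ⟩⟩
    unfold edgeGraph
    rw [SimpleGraph.fromEdgeSet_adj]
    exact ⟨⟨_, h y x hyx⟩, hφ.ne hyx.ne⟩

open Classical in
/-- slots of a set of ordered pairs -/
noncomputable def slots (R : Finset (Fin n × Fin n)) : Finset (EdgeSlot n) :=
  univ.filter fun z => ∃ e ∈ R, z.1 = s(e.1, e.2)

lemma card_slots (R : Finset (Fin n × Fin n)) (h : ∀ a b, (a, b) ∈ R → (b, a) ∉ R) :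
    (slots R).card = R.card := by
  classical
  symm
  refine card_bij (fun e he => slot e.1 e.2 (fun hc => h e.1 e.2 he (by
    have : (e.2, e.1) = e := Prod.ext hc.symm hc
    rw [this]; exact he))) (fun e he => ?_) (fun e he e' he' hh => ?_) (fun z hz => ?_)
  · simp only [slots, mem_filter, mem_univ, true_and]; exact ⟨e, he, rfl⟩
  · have h' : s(e.1, e.2) = s(e'.1, e'.2) := congrArg Subtype.val hh
    rcases Sym2.eq_iff.1 h' with ⟨h1, h2⟩ | ⟨h1, h2⟩
    · exact Prod.ext h1 h2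
    · exact absurd (show (e.2, e.1) ∈ R by rw [h1, h2]; exact he') (h e.1 e.2 he)
  · simp only [slots, mem_filter, mem_univ, true_and] at hz
    obtain ⟨e, he, hz⟩ := hz
    exact ⟨e, he, Subtype.ext hz.symm⟩

lemma first_moment {W : Type} {H : SimpleGraph W} {p : ℝ} (hp : 0 ≤ p) (hF : ¬ Small (FH n H) p)
    {σ : Type} (𝒮 : Finset σ) (R : σ → Finset (Fin n × Fin n)) (N : ℕ)
    (h : ∀ φ : W → Fin n, Function.Injective φ → ∃ s ∈ 𝒮, (R s).card = N ∧
      (∀ a b, (a, b) ∈ R s → (b, a) ∉ R s) ∧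
      ∀ e ∈ R s, ∃ y x, H.Adj y x ∧ e = (φ y, φ x)) :
    1 / 2 < 𝒮.card * p ^ N := by
  classical
  by_contra hc
  refine hF ⟨(𝒮.image fun s => slots (R s)).filter (fun S => S.card = N), fun A hA => ?_, ?_⟩
  · obtain ⟨φ, hφ, hA⟩ := mem_FH.1 hA
    obtain ⟨s, hs, h1, h2, h3⟩ := h φ hφ
    refine ⟨slots (R s), mem_filter.2 ⟨mem_image_of_mem _ hs, by rw [card_slots _ h2, h1]⟩,
      fun z hz => ?_⟩
    simp only [slots, mem_filter, mem_univ, true_and] at hz
    obtain ⟨e, he, hz⟩ := hz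
    obtain ⟨y, x, hyx, rfl⟩ := h3 e he
    have : z = slot (φ y) (φ x) (hφ.ne hyx.ne) := Subtype.ext hz
    rw [this]; exact hA y x hyx
  · rw [sum_congr rfl (g := fun _ => p ^ N) (fun S hS => by rw [(mem_filter.1 hS).2]), sum_const,
      nsmul_eq_mul]
    refine le_trans (mul_le_mul_of_nonneg_right ?_ (by positivity)) (not_lt.1 hc)
    exact_mod_cast (card_filter_le _ _).trans card_image_le

/-- (A) dense subgraphs -/
lemma fm_dense {W : Type} [Fintype W] [DecidableEq W] {H : SimpleGraph W} {p : ℝ} (hp : 0 ≤ p)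
    (hn : 0 < n) (hF : ¬ Small (FH n H) p) (A : Finset W) (R : Finset (W × W))
    (hR : ∀ e ∈ R, H.Adj e.1 e.2 ∧ e.1 ∈ A ∧ e.2 ∈ A) (hanti : ∀ a b, (a, b) ∈ R → (b, a) ∉ R) :
    1 / 2 < (n : ℝ) ^ A.card * p ^ R.card := by
  classical
  let ext : (A → Fin n) → W → Fin n := fun ψ x => if h : x ∈ A then ψ ⟨x, h⟩ else ⟨0, hn⟩
  have := first_moment hp hF (univ : Finset (A → Fin n))
    (fun ψ => R.image fun e => (ext ψ e.1, ext ψ e.2)) R.card (fun φ hφ => by
      have e1 : (R.image fun e => (ext (fun x => φ x) e.1, ext (fun x => φ x) e.2)) =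
          R.image (Prod.map φ φ) := image_congr fun e he => by
        obtain ⟨_, h1, h2⟩ := hR e he
        simp [ext, h1, h2, Prod.map]
      refine ⟨fun x => φ x, mem_univ _, ?_, ?_, ?_⟩
      · rw [e1, card_image_of_injective _ (hφ.prodMap hφ)]
      · rw [e1]
        intro a b h1 h2
        obtain ⟨⟨y, x⟩, he, h⟩ := mem_image.1 h1
        obtain ⟨⟨y', x'⟩, he', h'⟩ := mem_image.1 h2
        simp only [Prod.map, Prod.mk.injEq] at h h'
        have e2 : y' = x := hφ (h'.1.trans h.2.symm)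
        have e3 : x' = y := hφ (h'.2.trans h.1.symm)
        subst e2 e3
        exact hanti _ _ he he'
      · rw [e1]
        intro e he
        obtain ⟨⟨y, x⟩, he', rfl⟩ := mem_image.1 he
        exact ⟨y, x, (hR _ he').1, rfl⟩)
  simpa using this

/-- (B) disjoint stars -/
lemma fm_stars {W : Type} [Fintype W] [DecidableEq W] {H : SimpleGraph W} {p : ℝ} (hp : 0 ≤ p)
    (hF : ¬ Small (FH n H) p) (C : Finset W) (L : W → Finset W) (D : ℕ)
    (hL : ∀ c ∈ C, (L c).card = D ∧ ∀ y ∈ L c, H.Adj y c ∧ y ∉ C) :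
    1 / 2 < ((n * n.choose D).choose C.card : ℝ) * p ^ (C.card * D) := by
  classical
  have := first_moment hp hF
    (powersetCard C.card ((univ : Finset (Fin n)) ×ˢ powersetCard D (univ : Finset (Fin n))))
    (fun 𝒯 => 𝒯.biUnion fun cl => cl.2.image fun l => (l, cl.1)) (C.card * D) (fun φ hφ => by
      have hinj : Function.Injective fun c => (φ c, (L c).image φ) :=
        fun c c' h => hφ (congrArg Prod.fst h)
      have hmem : ∀ e, e ∈ ((C.image fun c => (φ c, (L c).image φ)).biUnion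
          fun cl => cl.2.image fun l => (l, cl.1)) ↔ ∃ c ∈ C, ∃ y ∈ L c, e = (φ y, φ c) := by
        intro e
        simp only [mem_biUnion, mem_image]
        constructor
        · rintro ⟨_, ⟨c, hc, rfl⟩, _, h, rfl⟩
          obtain ⟨y, hy, rfl⟩ := mem_image.1 h
          exact ⟨c, hc, y, hy, rfl⟩
        · rintro ⟨c, hc, y, hy, rfl⟩
          exact ⟨_, ⟨c, hc, rfl⟩, _, mem_image_of_mem _ hy, rfl⟩
      refine ⟨C.image fun c => (φ c, (L c).image φ), ?_, ?_, ?_, ?_⟩
      · rw [mem_powersetCard]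
        refine ⟨fun cl h => ?_, card_image_of_injective _ hinj⟩
        obtain ⟨c, hc, rfl⟩ := mem_image.1 h
        simp [mem_powersetCard, card_image_of_injective _ hφ, (hL c hc).1]
      · have : ((C.image fun c => (φ c, (L c).image φ)).biUnion
            fun cl => cl.2.image fun l => (l, cl.1)) =
            (C.sigma L).image fun k => (φ k.2, φ k.1) := by
          ext e; rw [hmem]; simp only [mem_image, mem_sigma]
          constructor
          · rintro ⟨c, hc, y, hy, rfl⟩; exact ⟨⟨c, y⟩, ⟨hc, hy⟩, rfl⟩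
          · rintro ⟨⟨c, y⟩, ⟨hc, hy⟩, rfl⟩; exact ⟨c, hc, y, hy, rfl⟩
        rw [this, card_image_of_injective, card_sigma,
          sum_congr rfl (g := fun _ => D) (fun c hc => (hL c hc).1)]
        · simp
        · rintro ⟨c, y⟩ ⟨c', y'⟩ h
          simp only [Prod.mk.injEq] at h
          have e1 := hφ h.1
          have e2 := hφ h.2
          subst e1 e2; rfl
      · intro a b h1 h2
        obtain ⟨c, hc, y, hy, h⟩ := (hmem _).1 h1
        obtain ⟨c', hc', y', hy', h'⟩ := (hmem _).1 h2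
        simp only [Prod.mk.injEq] at h h'
        have : y = c' := hφ (h.1.symm.trans h'.2)
        exact ((hL c hc).2 y hy).2 (this ▸ hc')
      · intro e he
        obtain ⟨c, hc, y, hy, rfl⟩ := (hmem _).1 he
        exact ⟨y, c, ((hL c hc).2 y hy).1, rfl⟩)
  simpa using this

end Crest.Agent.R52
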