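import Crest.Agent.R52.Star
import Crest.Agent.R52.Dense

/-! Decomposition of a graph into boundedly many pieces with small thresholds. -/

set_option autoImplicit false
set_option linter.unusedSectionVars false

namespace Crest.Agent.R52

open Finset Crest.Agent.PP Crest.CombinatoricsR.RandomGraph

variable {n : ℕ} {W : Type} [Fintype W] [DecidableEq W]

/-- the relation `O` is covered by `k` relations, each embedding with probability `≥ 1/2` -/
def PCov (n : ℕ) (q : ℝ) (O : W → W → Prop) (k : ℕ) : Prop :=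
  ∃ E : Fin k → W → W → Prop, (∀ y x, O y x → ∃ i, E i y x) ∧ ∀ i, 1 / 2 ≤ PE n q (E i)

lemma PE_empty (hW : Fintype.card W ≤ n) {q : ℝ} (h0 : 0 ≤ q) (h1 : q ≤ 1) (E : W → W → Prop)
    (hE : ∀ y x, ¬ E y x) : 1 / 2 ≤ PE n q E := by
  refine const_le_Ex (isProb_bw h0 h1) fun ω => ?_
  obtain ⟨φ⟩ : Nonempty (W ↪ Fin n) := Function.Embedding.nonempty_of_card_le (by simpa using hW)
  rw [ind_pos ⟨φ, φ.injective, fun y x h => absurd h (hE y x)⟩]; norm_num

lemma PCov.of_fintype (hW : Fintype.card W ≤ n) {q : ℝ} (h0 : 0 ≤ q) (h1 : q ≤ 1)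
    {O : W → W → Prop} {K : Type} [Fintype K] {k : ℕ} (hk : Fintype.card K ≤ k)
    (E : K → W → W → Prop) (hE : ∀ y x, O y x → ∃ i, E i y x) (hP : ∀ i, 1 / 2 ≤ PE n q (E i)) :
    PCov n q O k := by
  obtain ⟨e⟩ : Nonempty (K ↪ Fin k) := Function.Embedding.nonempty_of_card_le (by simpa using hk)
  refine ⟨Function.extend e E (fun _ _ _ => False), fun y x h => ?_, fun j => ?_⟩
  · obtain ⟨i, hi⟩ := hE y x h
    exact ⟨e i, by rw [e.injective.extend_apply]; exact hi⟩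
  · by_cases hj : ∃ i, e i = j
    · obtain ⟨i, rfl⟩ := hj
      rw [e.injective.extend_apply]; exact hP i
    · rw [Function.extend_apply' _ _ _ hj]; exact PE_empty hW h0 h1 _ (fun _ _ => id)

lemma PCov.mono (hW : Fintype.card W ≤ n) {q q' : ℝ} (h0 : 0 ≤ q) (hq : q ≤ q') (h1 : q' ≤ 1)
    {O : W → W → Prop} {k k' : ℕ} (hk : k ≤ k') (h : PCov n q O k) : PCov n q' O k' := by
  obtain ⟨E, hE, hP⟩ := h
  exact PCov.of_fintype hW (h0.trans hq) h1 (by simpa using hk) E hE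
    fun i => (hP i).trans (PE_mono _ h0 hq h1)

lemma PCov.union (hW : Fintype.card W ≤ n) {q : ℝ} (h0 : 0 ≤ q) (h1 : q ≤ 1)
    {O O₁ O₂ : W → W → Prop} {k₁ k₂ : ℕ} (h₁ : PCov n q O₁ k₁) (h₂ : PCov n q O₂ k₂)
    (h : ∀ y x, O y x → O₁ y x ∨ O₂ y x) : PCov n q O (k₁ + k₂) := by
  obtain ⟨E₁, hE₁, hP₁⟩ := h₁
  obtain ⟨E₂, hE₂, hP₂⟩ := h₂
  refine PCov.of_fintype hW h0 h1 (K := Fin k₁ ⊕ Fin k₂) (by simp) (Sum.elim E₁ E₂)
    (fun y x hO => ?_) (fun i => by cases i <;> simp only [Sum.elim_inl, Sum.elim_inr, hP₁, hP₂])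
  rcases h y x hO with h | h
  · obtain ⟨i, hi⟩ := hE₁ y x h; exact ⟨Sum.inl i, hi⟩
  · obtain ⟨i, hi⟩ := hE₂ y x h; exact ⟨Sum.inr i, hi⟩

lemma exists_idx (O : W → W → Prop) [∀ y, DecidablePred (O y)] (c : ℕ)
    (hc : ∀ y, (univ.filter (O y)).card ≤ c) :
    ∃ idx : W → W → ℕ, (∀ y x, O y x → idx y x < c) ∧
      ∀ y x x', O y x → O y x' → idx y x = idx y x' → x = x' := by
  refine ⟨fun y x => if h : x ∈ univ.filter (O y) then (univ.filter (O y)).equivFin ⟨x, h⟩ else 0,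
    fun y x h => ?_, fun y x x' h h' e => ?_⟩
  · have hx : x ∈ univ.filter (O y) := mem_filter.2 ⟨mem_univ _, h⟩
    simp only [dif_pos hx]
    exact (Fin.is_lt _).trans_le (hc y)
  · have hx : x ∈ univ.filter (O y) := mem_filter.2 ⟨mem_univ _, h⟩
    have hx' : x' ∈ univ.filter (O y) := mem_filter.2 ⟨mem_univ _, h'⟩
    simp only [dif_pos hx, dif_pos hx'] at e
    exact congrArg Subtype.val ((univ.filter (O y)).equivFin.injective (Fin.ext e))

lemma exists_two_col (E : W → W → Prop) (rk : W → ℕ) (hrk : ∀ y x, E y x → rk x < rk y)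
    (hfun : ∀ y x x', E y x → E y x' → x = x') : ∃ χ : W → Bool, ∀ y x, E y x → χ y ≠ χ x := by
  classical
  have key : ∀ N, ∃ χ : W → Bool, ∀ y x, rk y < N → E y x → χ y ≠ χ x := by
    intro N
    induction N with
    | zero => exact ⟨fun _ => true, by simp⟩
    | succ N ih =>
      obtain ⟨χ, hχ⟩ := ih
      refine ⟨fun y => if h : rk y = N ∧ ∃ x, E y x then !χ h.2.choose else χ y,
        fun y x hy h => ?_⟩
      have hx := hrk y x h
      simp only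
      rw [dif_neg (fun h' : rk x = N ∧ _ => by omega)]
      by_cases e : rk y = N
      · rw [dif_pos ⟨e, x, h⟩, hfun y _ _ (Exists.choose_spec (⟨x, h⟩ : ∃ x, E y x)) h]
        simp
      · rw [dif_neg (fun h' => e h'.1)]
        exact hχ y x (by omega) h
  obtain ⟨χ, hχ⟩ := key (univ.sup rk + 1)
  exact ⟨χ, fun y x h => hχ y x (Nat.lt_succ_of_le (le_sup (mem_univ y))) h⟩

lemma star_cover (hn : 200 ≤ n) (hW : Fintype.card W ≤ n) {H : SimpleGraph W} {p : ℝ} (hp : 0 ≤ p)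
    (hp' : Lstar * p ≤ 1 / 2) (hF : ¬ Small (FH n H) p) (O : W → W → Prop)
    [∀ y, DecidablePred (O y)] (hOH : ∀ y x, O y x → H.Adj y x) (rk : W → ℕ)
    (hrk : ∀ y x, O y x → rk x < rk y) (c : ℕ) (hc : ∀ y, (univ.filter (O y)).card ≤ c) :
    PCov n (Lstar * p) O (c * 200) := by
  classical
  have hL : 0 < Lstar := by unfold Lstar; positivity
  obtain ⟨idx, h1, h2⟩ := exists_idx O c hc
  have h3 : ∀ a : ℕ, ∃ χ : W → Bool, ∀ y x, (O y x ∧ idx y x = a) → χ y ≠ χ x := fun a =>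
    exists_two_col _ rk (fun y x h => hrk y x h.1)
      (fun y x x' h h' => h2 y x x' h.1 h'.1 (h.2.trans h'.2.symm))
  choose χ hχ using h3
  obtain ⟨e⟩ : Nonempty (W ↪ Fin n) := Function.Embedding.nonempty_of_card_le (by simpa using hW)
  refine PCov.of_fintype hW (by positivity) (by linarith) (K := Fin c × Bool × Fin 100) (by simp)
    (fun k y x => O y x ∧ idx y x = k.1 ∧ χ k.1 y = k.2.1 ∧ (e y : ℕ) % 100 = k.2.2)
    (fun y x h => ⟨(⟨idx y x, h1 y x h⟩, χ (idx y x) y, ⟨(e y : ℕ) % 100, Nat.mod_lt _ (by norm_num)⟩),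
      h, rfl, rfl, rfl⟩) fun k => ?_
  refine star_emb hn hW hp hp' hF _ (fun y x h => hOH y x h.1)
    (fun y x x' h h' => h2 y x x' h.1 h'.1 (h.2.1.trans h'.2.1.symm))
    (fun y x z h h' => hχ k.1 y x ⟨h.1, h.2.1⟩ (h.2.2.1.trans h'.2.2.1.symm))
    (univ.filter fun y => (e y : ℕ) % 100 = k.2.2)
    (fun y x h => mem_filter.2 ⟨mem_univ _, h.2.2.2⟩) ?_
  have : (univ.filter fun y => (e y : ℕ) % 100 = k.2.2).card ≤ (range (n / 100 + 1)).card := by
    refine card_le_card_of_injOn (fun y => (e y : ℕ) / 100) (fun y _ => ?_) fun y hy y' hy' h => ?_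
    · have := (e y).2
      simp only [coe_range, Set.mem_Iio]; omega
    · simp only [coe_filter, mem_univ, true_and, Set.mem_ofPred_eq] at hy hy' h
      exact e.injective (Fin.ext (by omega))
  rw [card_range] at this
  omega

lemma exists_order (H : SimpleGraph W) [DecidableRel H.Adj] (d : ℕ)
    (hd : ∀ A : Finset W, A.Nonempty → ∃ y ∈ A, (A.filter (H.Adj y)).card ≤ d) (A : Finset W) :
    ∃ rk : W → ℕ, Set.InjOn rk A ∧ ∀ y ∈ A, (A.filter fun x => H.Adj y x ∧ rk x < rk y).card ≤ d := by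
  induction A using Finset.strongInduction with
  | H A ih =>
    rcases A.eq_empty_or_nonempty with rfl | hA
    · exact ⟨fun _ => 0, by simp, by simp⟩
    obtain ⟨y₀, hy₀, hd₀⟩ := hd A hA
    obtain ⟨rk, h1, h2⟩ := ih (A.erase y₀) (erase_ssubset hy₀)
    set N := univ.sup rk + 1 with hN
    have hlt : ∀ x, rk x < N := fun x => Nat.lt_succ_of_le (le_sup (mem_univ x))
    refine ⟨fun x => if x = y₀ then N else rk x, fun x hx x' hx' h => ?_, fun y hy => ?_⟩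
    · by_cases e1 : x = y₀ <;> by_cases e2 : x' = y₀
      · rw [e1, e2]
      · simp only [e1, e2, if_true, if_false] at h; have := hlt x'; omega
      · simp only [e1, e2, if_true, if_false] at h; have := hlt x; omega
      · simp only [e1, e2, if_false] at h
        exact h1 (mem_coe.2 (mem_erase.2 ⟨e1, hx⟩)) (mem_coe.2 (mem_erase.2 ⟨e2, hx'⟩)) h
    · by_cases e1 : y = y₀
      · subst e1
        exact (card_le_card (monotone_filter_right _ fun x _ h => h.1)).trans hd₀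
      · refine le_trans (card_le_card fun x hx => ?_) (h2 y (mem_erase.2 ⟨e1, hy⟩))
        obtain ⟨hxA, hadj, hl⟩ := mem_filter.1 hx
        simp only [e1, if_false] at hl
        have e2 : x ≠ y₀ := fun e => by simp only [e, if_true] at hl; have := hlt y; omega
        simp only [e2, if_false] at hl
        exact mem_filter.2 ⟨mem_erase.2 ⟨e2, hxA⟩, hadj, hl⟩

lemma exists_degen (hn : 0 < n) (H : SimpleGraph W) [DecidableRel H.Adj] {p : ℝ} (hp : 0 ≤ p)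
    (hp1 : p ≤ 1) (hF : ¬ Small (FH n H) p) :
    ∃ (d : ℕ) (rk : W → ℕ), Function.Injective rk ∧
      (∀ y, (univ.filter fun x => H.Adj y x ∧ rk x < rk y).card ≤ d) ∧
      1 / 4 ≤ (n : ℝ) ^ 2 * p ^ d := by
  classical
  have hex : ∃ d, ∀ A : Finset W, A.Nonempty → ∃ y ∈ A, (A.filter (H.Adj y)).card ≤ d :=
    ⟨Fintype.card W, fun A ⟨y, hy⟩ => ⟨y, hy, card_le_univ _⟩⟩
  obtain ⟨rk, h1, h2⟩ := exists_order H _ (Nat.find_spec hex) univ
  have hrk : Function.Injective rk := fun a b h => h1 (by simp) (by simp) h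
  refine ⟨Nat.find hex, rk, hrk, fun y => h2 y (mem_univ y), ?_⟩
  have hn1 : (1:ℝ) ≤ n := by exact_mod_cast hn
  rcases Nat.eq_zero_or_pos (Nat.find hex) with h | h
  · rw [h]; nlinarith
  have h3 := Nat.find_min hex (m := Nat.find hex - 1) (by omega)
  push Not at h3
  obtain ⟨A, hA, h3⟩ := h3
  set d := Nat.find hex
  let R : Finset (W × W) := (A ×ˢ A).filter fun e => H.Adj e.1 e.2 ∧ rk e.2 < rk e.1
  have h4 := fm_dense hp hn hF A R (fun e he => by
    obtain ⟨h5, h6, _⟩ := mem_filter.1 he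
    exact ⟨h6, mem_product.1 h5⟩) (fun a b h5 h6 => by
      have := (mem_filter.1 h5).2.2
      have := (mem_filter.1 h6).2.2
      simp only at *; omega)
  have h5 : A.card * d ≤ R.card + R.card := by
    have e1 : A.card * d ≤ (A.sigma fun y => A.filter (H.Adj y)).card := by
      rw [card_sigma, ← smul_eq_mul, ← sum_const]
      exact sum_le_sum fun y hy => by have := h3 y hy; omega
    have e2 : (A.sigma fun y => A.filter (H.Adj y)).card ≤ (R ∪ R.image Prod.swap).card := by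
      refine card_le_card_of_injOn (fun k => (k.1, k.2)) (fun k hk => ?_) ?_
      · obtain ⟨h6, h7⟩ := mem_sigma.1 (mem_coe.1 hk)
        obtain ⟨h7, h8⟩ := mem_filter.1 h7
        rcases lt_or_gt_of_ne (hrk.ne h8.ne) with h9 | h9
        · exact mem_coe.2 (mem_union_right _ (mem_image.2 ⟨(k.2, k.1),
            mem_filter.2 ⟨mem_product.2 ⟨h7, h6⟩, h8.symm, h9⟩, rfl⟩))
        · exact mem_coe.2 (mem_union_left _ (mem_filter.2 ⟨mem_product.2 ⟨h6, h7⟩, h8, h9⟩))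
      · rintro ⟨a, b⟩ _ ⟨a', b'⟩ _ h
        simp only [Prod.mk.injEq] at h
        obtain ⟨rfl, rfl⟩ := h; rfl
    exact e1.trans (e2.trans ((card_union_le _ _).trans (Nat.add_le_add_left card_image_le _)))
  by_contra hc
  have h6 : ((n : ℝ) ^ 2 * p ^ d) ^ A.card ≤ (n : ℝ) ^ 2 * p ^ d :=
    pow_le_of_le_one (by positivity) (by linarith) hA.card_pos.ne'
  have h7 : ((n : ℝ) ^ A.card * p ^ R.card) ^ 2 ≤ ((n : ℝ) ^ 2 * p ^ d) ^ A.card := by
    rw [mul_pow, mul_pow, ← pow_mul, ← pow_mul, ← pow_mul, ← pow_mul, mul_comm A.card 2]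
    exact mul_le_mul_of_nonneg_left (pow_le_pow_of_le_one hp hp1 (by rw [mul_comm]; omega))
      (by positivity)
  nlinarith

lemma small_singletons {H : SimpleGraph W} (hH : H ≠ ⊥) {p : ℝ}
    (hp : Fintype.card (EdgeSlot n) * p ≤ 1 / 2) : Small (FH n H) p := by
  classical
  obtain ⟨a, b, hab⟩ := SimpleGraph.ne_bot_iff_exists_adj.1 hH
  refine ⟨univ.image fun z => {z}, fun A hA => ?_, ?_⟩
  · obtain ⟨φ, hφ, h⟩ := mem_FH.1 hA
    exact ⟨_, mem_image_of_mem _ (mem_univ _), singleton_subset_iff.2 (h a b hab)⟩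
  · rw [sum_image (fun _ _ _ _ h => singleton_injective h)]
    simpa using hp

lemma small_cover (hW : Fintype.card W ≤ n) {H : SimpleGraph W} (hH : H ≠ ⊥) {p : ℝ} (hp : 0 ≤ p)
    (hp1 : 2 * p ≤ 1) (hF : ¬ Small (FH n H) p) : PCov n (2 * p) H.Adj (n * n) := by
  classical
  have hw := isProb_bw (by linarith : 0 ≤ 2 * p) hp1
  refine PCov.of_fintype hW (by linarith) hp1 (K := W × W)
    (by rw [Fintype.card_prod]; exact Nat.mul_le_mul hW hW)
    (fun k y x => H.Adj y x ∧ (y, x) = k) (fun y x h => ⟨_, h, rfl⟩) fun k => ?_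
  have h1 : 1 / 2 < Fintype.card (EdgeSlot n) * p := not_le.1 fun h => hF (small_singletons hH h)
  have h2 := Ex_prod (ι := EdgeSlot n) (bw (2 * p)) (fun _ b => ind (b = false))
  simp only [← ind_forall] at h2
  have h3 : ∏ _i : EdgeSlot n, ∑ k : Bool, bw (2 * p) k * ind (k = false) ≤ 1 / 2 := by
    have : ∑ k : Bool, bw (2 * p) k * ind (k = false) = 1 - 2 * p := by simp [bw, ind]
    rw [this, prod_const, card_univ]
    calc _ ≤ Real.exp (-(2 * p)) ^ Fintype.card (EdgeSlot n) := by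
          gcongr
          linarith [Real.add_one_le_exp (-(2 * p))]
      _ ≤ Real.exp (-1) := by rw [← Real.exp_nat_mul]; exact Real.exp_le_exp.2 (by linarith)
      _ ≤ _ := by linarith [Real.exp_neg_one_lt_d9]
  have h4 := Ex_ind_not hw (fun ω : EdgeSlot n → Bool => ∀ z ∈ univ, ω z = false)
  refine le_trans (by linarith) (Ex_ind_mono hw
    (P := fun ω : EdgeSlot n → Bool => ¬ ∀ z ∈ univ, ω z = false) fun ω hω => ?_)
  push Not at hω
  obtain ⟨⟨z, hz⟩, _, hω⟩ := hω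
  induction z using Sym2.ind with
  | _ u v =>
  have huv : u ≠ v := by simpa using hz
  obtain ⟨y₀, x₀⟩ := k
  refine emb_of_injOn hW {y₀, x₀} (fun y x h => ?_) (fun w => if w = y₀ then u else v) ?_ ?_
  · obtain ⟨rfl, rfl⟩ := Prod.mk.inj h.2; simp
  · intro a ha b hb h
    simp only [coe_insert, coe_singleton, Set.mem_insert_iff, Set.mem_singleton_iff] at ha hb
    by_cases e1 : a = y₀ <;> by_cases e2 : b = y₀
    · rw [e1, e2]
    · simp only [e1, e2, if_true, if_false] at h; exact absurd h huv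
    · simp only [e1, e2, if_true, if_false] at h; exact absurd h.symm huv
    · rw [ha.resolve_left e1, hb.resolve_left e2]
  · intro y x h
    obtain ⟨rfl, rfl⟩ := Prod.mk.inj h.2
    simp only [if_true, if_neg h.1.ne']
    rw [adj_eq _ huv]
    exact Bool.eq_true_of_not_eq_false hω

lemma two_pow_bound {b : ℕ} (hb : 2 ^ 40 ≤ b) : 2 ^ 17 * b ^ 16 ≤ 2 ^ b := by
  set c := b / 32 with hc
  have h1 : b ≤ 32 * 2 ^ c := by have := Nat.lt_two_pow_self (n := c); omega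
  calc 2 ^ 17 * b ^ 16 ≤ 2 ^ 17 * (32 * 2 ^ c) ^ 16 := by gcongr
    _ = 2 ^ (97 + 16 * c) := by rw [mul_pow, ← pow_mul, pow_add, mul_comm c]; norm_num; ring
    _ ≤ 2 ^ b := Nat.pow_le_pow_right (by norm_num) (by omega)

/-- number of dense pieces -/
def kd (mm : ℕ) : ℕ := (mm + mm) * (32 * (2 * (256 * 256)))

/-- discrete convexity with multiplicity `m` -/
def Conv (m : ℕ) : Prop := ∀ (α : Type) [Fintype α] [DecidableEq α] (p : ℝ), 0 < p → p < 1 →
  ∀ D : (α → Bool) → Prop, 1 - 1 / (3 * m) ≤ Ex (bw p) (fun ω => ind (D ω)) →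
  ∀ F : Finset (Finset α), (∀ S ∈ F, ∀ f : Fin m ⊕ Fin m → (α → Bool), (∀ i, D (f i)) →
      ∃ x ∈ S, ∀ i, f i x = false) → Small F p

lemma exists_conv : ∃ m : ℕ, (m : ℝ) = 25 * 512 ^ 4 ∧ Conv m :=
  ⟨mm, by unfold mm; norm_num, fun _ _ _ _ h0 h1 D hD F hF => convexity h0 h1 D hD F hF⟩

lemma num_p4 {p : ℝ} (hp : 0 < p) (hp' : Lstar * p ≤ 1 / 2) :
    p ≤ 1 / 4 ∧ 0 ≤ p + p - p * p ∧ p + p - p * p ≤ Lstar * p ∧ 2 * p ≤ Lstar * p := by
  have hL : 2 ≤ Lstar := by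
    unfold Lstar; linarith [Real.one_le_exp (by norm_num : (0:ℝ) ≤ 32)]
  have : p ≤ 1 / 4 := by nlinarith
  refine ⟨this, ?_, ?_, ?_⟩ <;> nlinarith

lemma num_d2b {p : ℝ} (hp : 0 < p) (hp4 : p ≤ 1 / 4) {n b d' : ℕ} (hn4 : 2 * n ≤ 2 ^ b)
    (hpd : 1 / 4 ≤ (n : ℝ) ^ 2 * p ^ d') : d' ≤ 2 * b := by
  have e1 : p ^ d' ≤ (1 / 2) ^ d' := pow_le_pow_left₀ hp.le (by linarith) _
  have e2 : ((2:ℝ) * n) ^ 2 ≤ (2 ^ b) ^ 2 := by
    gcongr; exact_mod_cast hn4
  have e3 : (1:ℝ) ≤ (2 ^ b) ^ 2 * (1 / 2) ^ d' := by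
    have : (n:ℝ) ^ 2 * p ^ d' ≤ n ^ 2 * (1 / 2) ^ d' := by gcongr
    have e4 : (0:ℝ) ≤ (1 / 2) ^ d' := by positivity
    have e5 := mul_le_mul_of_nonneg_right e2 e4
    linarith
  rw [one_div, inv_pow, ← div_eq_mul_inv, one_le_div (by positivity), ← pow_mul,
    pow_le_pow_iff_right₀ (by norm_num)] at e3
  omega

lemma num_fam {n b d : ℕ} (hb0 : 0 < b) (hn0 : 0 < n) (hn4 : 2 * n ≤ 2 ^ b) (hd : d ≤ 2 * b) :
    (Fam (Fin n) (2 * b ^ 4) d).card ≤ 2 ^ (6 * b ^ 6) := by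
  refine (card_Fam _ _).trans ?_
  rw [Fintype.card_fin]
  have e2 : (n + 1) ^ d ≤ 2 ^ (b * (2 * b)) := by
    rw [pow_mul]
    exact (Nat.pow_le_pow_left (by omega) _).trans (Nat.pow_le_pow_right (by positivity) hd)
  have e3 : (n + 1) ^ d + 1 ≤ 2 ^ (b * (2 * b) + 1) := by
    have := Nat.one_le_two_pow (n := b * (2 * b)); rw [pow_succ]; omega
  refine (Nat.pow_le_pow_left e3 _).trans ?_
  rw [← pow_mul]
  refine Nat.pow_le_pow_right (by norm_num) ?_
  have : b ^ 4 ≤ b ^ 6 := Nat.pow_le_pow_right hb0 (by norm_num)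
  calc (b * (2 * b) + 1) * (2 * b ^ 4) = 4 * b ^ 6 + 2 * b ^ 4 := by ring
    _ ≤ _ := by omega

lemma num_fam2 {b : ℝ} (hb : 2 ^ 40 ≤ b) {x u : ℝ} (hx : x ≤ Real.exp (6 * b ^ 6))
    (hu : b ^ 8 / 256 ≤ u) : x * Real.exp (-u) ≤ 1 / 2 ^ 100 / b ^ 4 := by
  have hb0 : 0 < b := lt_of_lt_of_le (by norm_num) hb
  have e3 : 6 * b ^ 6 ≤ b ^ 8 / 512 := by
    have h1 : ((2:ℝ) ^ 40) ^ 2 ≤ b ^ 2 := by gcongr
    have h2 : (3072:ℝ) ≤ b ^ 2 := le_trans (by norm_num) h1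
    have h3 := mul_le_mul_of_nonneg_right h2 (by positivity : (0:ℝ) ≤ b ^ 6)
    have h4 : b ^ 2 * b ^ 6 = b ^ 8 := by ring
    linarith
  have hb4 : ((2:ℝ) ^ 40) ^ 4 ≤ b ^ 4 := by gcongr
  calc _ ≤ Real.exp (6 * b ^ 6) * Real.exp (-u) := by gcongr
    _ ≤ Real.exp (-(b ^ 8 / 512)) := by rw [← Real.exp_add]; exact Real.exp_le_exp.2 (by linarith)
    _ ≤ 512 / b ^ 8 := by
      rw [Real.exp_neg, inv_le_comm₀ (Real.exp_pos _) (by positivity), inv_div]
      linarith [Real.add_one_le_exp (b ^ 8 / 512)]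
    _ = 512 / b ^ 4 / b ^ 4 := by field_simp
    _ ≤ 512 / (2 ^ 40) ^ 4 / b ^ 4 := by gcongr
    _ ≤ _ := div_le_div_of_nonneg_right (by norm_num) (by positivity)

lemma num_eta {b p : ℝ} (hb : 2 ^ 40 ≤ b) (hp : 0 < p) (hp4 : p ≤ 1 / 4) {n : ℝ} (hn : 0 ≤ n)
    (hn3 : n ≤ 2 ^ 16 * b ^ 16) {d d' : ℕ} (hd : d * 16 ≤ d') (hpd : 1 / 4 ≤ n ^ 2 * p ^ d') :
    1 / b ^ 4 ≤ p ^ d := by
  have hb1 : 1 ≤ b := le_trans (by norm_num) hb
  refine le_of_pow_le_pow_left₀ (n := 16) (by norm_num) (by positivity) ?_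
  rw [← pow_mul]
  refine le_trans ?_ (pow_le_pow_of_le_one hp.le (by linarith) hd)
  have e1 : n ^ 2 * p ^ d' ≤ (2 ^ 16 * b ^ 16) ^ 2 * p ^ d' := by gcongr
  have e2 : (2:ℝ) ^ 34 ≤ b ^ 32 := le_trans (le_trans (by norm_num) hb) (le_self_pow₀ hb1 (by norm_num))
  rw [div_pow, one_pow, div_le_iff₀ (by positivity)]
  have e3 := mul_le_mul_of_nonneg_right e2 (by positivity : (0:ℝ) ≤ b ^ 32 * p ^ d')
  have e4 : (2 ^ 16 * b ^ 16) ^ 2 * p ^ d' = 2 ^ 32 * (b ^ 32 * p ^ d') := by ring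
  have e5 : p ^ d' * (b ^ 4) ^ 16 = b ^ 32 * (b ^ 32 * p ^ d') := by ring
  linarith

lemma dense_cover (mm : ℕ) (hmm : (mm : ℝ) = 25 * 512 ^ 4) (hC : Conv mm) {b : ℕ}
    (hb : 2 ^ 40 ≤ b) (hn1 : b ^ 16 ≤ n) (hn2 : n < (b + 1) ^ 16)
    (hW : Fintype.card W ≤ n) {H : SimpleGraph W} [DecidableRel H.Adj] {p : ℝ} (hp : 0 < p)
    (hp' : Lstar * p ≤ 1 / 2) (hF : ¬ Small (FH n H) p) (d' : ℕ) (hd' : 32 ≤ d') (rk : W → ℕ)
    (hdeg : ∀ y, (univ.filter fun x => H.Adj y x ∧ rk x < rk y).card ≤ d')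
    (hpd : 1 / 4 ≤ (n : ℝ) ^ 2 * p ^ d') :
    PCov n (Lstar * p) (fun y x => H.Adj y x ∧ rk x < rk y) (5 * 200 + kd mm) := by
  classical
  obtain ⟨hp4, hp20, hp21, -⟩ := num_p4 hp hp'
  have hb0 : 0 < b := lt_of_lt_of_le (by norm_num) hb
  have hb2 : 200 ≤ b := le_trans (by norm_num) hb
  have hn3 : n ≤ 2 ^ 16 * b ^ 16 := by
    rw [← mul_pow]; exact hn2.le.trans (Nat.pow_le_pow_left (by omega) _)
  have hn4 : 2 * n ≤ 2 ^ b := le_trans (by omega) (two_pow_bound hb)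
  have hn0 : 0 < n := lt_of_lt_of_le (by positivity) hn1
  have hbR : (2:ℝ) ^ 40 ≤ b := by exact_mod_cast hb
  have hbR0 : (0:ℝ) < b := by exact_mod_cast hb0
  have hbR1 : (1:ℝ) ≤ b := by exact_mod_cast hb0
  have hn1R : (b:ℝ) ^ 16 ≤ n := by exact_mod_cast hn1
  have hn3R : (n:ℝ) ≤ 2 ^ 16 * b ^ 16 := by exact_mod_cast hn3
  have hd2b : d' ≤ 2 * b := num_d2b hp hp4 hn4 hpd
  have hn200 : 200 ≤ n := hb2.trans ((Nat.le_self_pow (by norm_num) b).trans hn1)
  obtain ⟨d, hd⟩ : ∃ d, d = (d' + 31) / 32 := ⟨_, rfl⟩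
  have hηp := num_eta hbR hp hp4 (Nat.cast_nonneg n) hn3R (show d * 16 ≤ d' by omega) hpd
  have hfam := num_fam hb0 hn0 hn4 (show d ≤ 2 * b by omega)
  have hMn : 2 * b ^ 4 ≤ n := by
    refine le_trans ?_ hn1
    calc 2 * b ^ 4 ≤ b ^ 12 * b ^ 4 := Nat.mul_le_mul_right _
          (le_trans (by omega) (Nat.le_self_pow (by norm_num) b))
      _ = _ := by ring
  clear hn1 hn2 hn3 hn4 hb
  obtain ⟨M, hM⟩ : ∃ M, M = b ^ 4 := ⟨_, rfl⟩
  rw [← hM] at hfam hMn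
  have hM0 : 0 < M := by rw [hM]; positivity
  have hMR : (M : ℝ) = (b:ℝ) ^ 4 := by rw [hM]; push_cast; rfl
  obtain ⟨s, hs⟩ : ∃ s, s = n / (2 * M) := ⟨_, rfl⟩
  obtain ⟨η, hη⟩ : ∃ η : ℝ, η = 1 / M := ⟨_, rfl⟩
  rw [← hMR, ← hη] at hηp
  have hη0 : 0 < η := by rw [hη, hMR]; positivity
  obtain ⟨u, hu⟩ : ∃ u : ℝ, u = n * η / (256 * M) := ⟨_, rfl⟩
  have hs1 : 1 ≤ s := hs ▸ (Nat.le_div_iff_mul_le (by omega)).2 (by omega)
  have hns : n ≤ 4 * M * s := by
    have h1 := Nat.lt_mul_div_succ n (show 0 < 2 * M by omega)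
    rw [← hs] at h1
    have h2 : 2 * M * (s + 1) ≤ 2 * M * (2 * s) := Nat.mul_le_mul_left _ (by omega)
    have h3 : 2 * M * (2 * s) = 4 * M * s := by ring
    omega
  have hsn : 2 * M * s ≤ n := hs ▸ Nat.mul_div_le _ _
  have hub : (b:ℝ) ^ 8 / 256 ≤ u := by
    rw [hu, hη, hMR, div_le_div_iff₀ (by norm_num) (by positivity)]
    have : (b:ℝ) ^ 8 * (256 * b ^ 4) = b ^ 16 * (1 / b ^ 4) * 256 := by field_simp
    rw [this]; gcongr
  have hFam : ((Fam (Fin n) (2 * M) d).card : ℝ) * Real.exp (-u) ≤ 1 / 2 ^ 100 / (b:ℝ) ^ 4 := by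
    refine num_fam2 hbR ?_ hub
    refine (Nat.cast_le.2 hfam).trans ?_
    rw [show (6 * (b:ℝ) ^ 6) = ((6 * b ^ 6 : ℕ) : ℝ) * 1 by push_cast; ring, Real.exp_nat_mul]
    push_cast
    exact pow_le_pow_left₀ (by norm_num) (by linarith [Real.exp_one_gt_d9]) _
  clear hfam
  have hb4' : (1:ℝ) / 2 ^ 100 / b ^ 4 ≤ 1 / 2 ^ 100 := div_le_self (by positivity) (one_le_pow₀ hbR1)
  -- apply discrete convexity
  have hconv : ∃ S ∈ FH n H, ∃ f : Fin mm ⊕ Fin mm → (EdgeSlot n → Bool),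
      (∀ i, UT p u (2 * M) d (f i)) ∧ ∀ x ∈ S, ∃ i, f i x = true := by
    by_contra hc
    refine hF (hC _ p hp (by linarith) (UT p u (2 * M) d) ?_ _ fun S hS f hf => ?_)
    · refine le_trans ?_ (UT_prob hp.le (by linarith) u (2 * M) d)
      have : (1:ℝ) / 2 ^ 100 ≤ 1 / (3 * mm) := by rw [hmm]; norm_num
      linarith
    · by_contra hcon
      refine hc ⟨S, hS, f, hf, fun x hx => ?_⟩
      by_contra h
      exact hcon ⟨x, hx, fun i => by simpa using fun e => h ⟨i, e⟩⟩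
  obtain ⟨S, hS, f, hf, hSf⟩ := hconv
  obtain ⟨ψ, hψ, hψS⟩ := mem_FH.1 hS
  have : Nonempty (Fin M × Fin 256) := ⟨(⟨0, hM0⟩, 0)⟩
  have hΛ : (Fintype.card (Fin M × Fin 256) : ℝ) = 256 * M := by simp [mul_comm]
  obtain ⟨σ, hσ1, hσ2⟩ := sigma_exists (Λ := Fin M × Fin 256)
    ((univ : Finset (Fin mm ⊕ Fin mm)) ×ˢ Fam (Fin n) (2 * M) d)
    (fun k => univ.filter fun y => VV p k.2 (adj (f k.1) (ψ y)))
    (fun y => univ.filter fun x => H.Adj y x ∧ rk x < rk y) (fun y => by simp) d' hdeg u (by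
      rw [hΛ, card_product, card_univ, Fintype.card_sum, Fintype.card_fin]
      push_cast
      have e1 : ((mm:ℝ) + mm) * (Fam (Fin n) (2 * M) d).card * (256 * M) * Real.exp (-u) ≤ 1 / 4 := by
        calc _ = (mm + mm) * (256 * M) * ((Fam (Fin n) (2 * M) d).card * Real.exp (-u)) := by ring
          _ ≤ (mm + mm) * (256 * M) * (1 / 2 ^ 100 / b ^ 4) := by gcongr
          _ = (mm + mm) * 256 / 2 ^ 100 := by rw [hMR]; field_simp
          _ ≤ _ := by rw [hmm]; norm_num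
      have e2 : (Fintype.card W : ℝ) * ((d' : ℝ) / (256 * M)) ^ 6 ≤ 1 / 4 := by
        have e3 : (Fintype.card W : ℝ) ≤ 2 ^ 16 * b ^ 16 := (Nat.cast_le.2 hW).trans hn3R
        have e4 : (d' : ℝ) ≤ 2 * b := by exact_mod_cast hd2b
        calc _ ≤ 2 ^ 16 * (b:ℝ) ^ 16 * ((2 * b) / (256 * M)) ^ 6 := by gcongr
          _ = 1 / 2 ^ 26 / b ^ 2 := by rw [hMR]; field_simp; norm_num
          _ ≤ 1 / 2 ^ 26 := div_le_self (by positivity) (one_le_pow₀ hbR1)
          _ ≤ _ := by norm_num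
      linarith)
  rw [hΛ] at hσ1
  have hq0 : 0 ≤ Lstar * p := hp20.trans hp21
  have hq1 : Lstar * p ≤ 1 := by linarith
  refine PCov.union hW hq0 hq1 (O₁ := fun y x => (H.Adj y x ∧ rk x < rk y) ∧ σ x = σ y)
    (O₂ := fun y x => (H.Adj y x ∧ rk x < rk y) ∧ σ x ≠ σ y)
    (star_cover hn200
      hW hp.le hp' hF _ (fun y x h => h.1.1) rk (fun y x h => h.1.2) 5
      (fun y => by rw [← filter_filter]; exact hσ2 y)) ?_ (fun y x h => by tauto)
  obtain ⟨idx, hidx1, hidx2⟩ := exists_idx (fun y x => H.Adj y x ∧ rk x < rk y) d' hdeg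
  have hd0 : 0 < d := by omega
  let l₀ : W → ℕ := fun y => finProdFinEquiv (σ y)
  have hl₀ : ∀ y y', l₀ y = l₀ y' ↔ σ y = σ y' := fun y y' =>
    ⟨fun h => finProdFinEquiv.injective (Fin.ext h), fun h => by simp only [l₀, h]⟩
  have hl₁ : ∀ y, l₀ y < M * 256 := fun y => (finProdFinEquiv (σ y)).2
  let lay : Bool → W → ℕ := fun β y => if β then l₀ y else M * 256 - l₀ y
  have hlay : ∀ β y y', lay β y = lay β y' ↔ σ y = σ y' := by
    intro β y y'
    rw [← hl₀]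
    have := hl₁ y; have := hl₁ y'
    cases β <;> simp only [lay, if_true, Bool.false_eq_true, if_false]; omega
  obtain ⟨e⟩ : Nonempty ((Fin M × Bool) × Fin s ↪ Fin n) :=
    Function.Embedding.nonempty_of_card_le (by
      simp only [Fintype.card_prod, Fintype.card_fin, Fintype.card_bool]
      rw [mul_comm M 2]; exact hsn)
  let Bl : Fin M × Bool → Finset (Fin n) := fun a => univ.image fun j => e (a, j)
  have hBl : ∀ a a', a ≠ a' → Disjoint (Bl a) (Bl a') := fun a a' h => disjoint_left.2 fun z h1 h2 => by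
    obtain ⟨j, _, rfl⟩ := mem_image.1 h1
    obtain ⟨j', _, h3⟩ := mem_image.1 h2
    exact h (congrArg Prod.fst (e.injective h3)).symm
  have hBls : ∀ a, (Bl a).card = s := fun a => by
    rw [card_image_of_injective _ (fun j j' h => congrArg Prod.snd (e.injective h))]; simp
  have hLT : 1 / 2 ≤ Ex (bw (p + p - p * p))
      (fun ω : EdgeSlot n → Bool => ind (LT Bl (p + p - p * p) η s (2 * M) d ω)) := by
    refine le_trans ?_ (LT_prob Bl hp20 (hp21.trans hq1) η s (2 * M) d hBls)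
    have e1 : Real.exp (-(s * η / 4)) ≤ Real.exp (-u) := by
      refine Real.exp_le_exp.2 (neg_le_neg ?_)
      have : (n:ℝ) ≤ 4 * M * s := by exact_mod_cast hns
      rw [hu, div_le_div_iff₀ (by rw [hMR]; positivity) (by norm_num)]
      have h2 := mul_le_mul_of_nonneg_right this hη0.le
      have h3 : (0:ℝ) ≤ M * s * η := by positivity
      linarith
    have e2 : (Fintype.card (Fin M × Bool) : ℝ) * (Fam (Fin n) (2 * M) d).card *
        Real.exp (-(s * η / 4)) ≤ 1 / 2 := by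
      calc _ ≤ (Fintype.card (Fin M × Bool) : ℝ) * ((Fam (Fin n) (2 * M) d).card * Real.exp (-u)) := by
            rw [mul_assoc]; gcongr
        _ ≤ (Fintype.card (Fin M × Bool) : ℝ) * (1 / 2 ^ 100 / b ^ 4) := by
            gcongr
        _ = 2 / 2 ^ 100 := by simp only [Fintype.card_prod, Fintype.card_fin, Fintype.card_bool]
                              push_cast; rw [hMR]; field_simp
        _ ≤ _ := by norm_num
    linarith
  refine PCov.mono hW hp20 hp21 hq1 le_rfl (PCov.of_fintype hW hp20 (hp21.trans hq1)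
    (K := (Fin mm ⊕ Fin mm) × Fin 32 × Bool × Fin 256 × Fin 256) (by simp [kd])
    (fun k y x => (H.Adj y x ∧ rk x < rk y) ∧ adj (f k.1) (ψ y) (ψ x) = true ∧
      idx y x / d = k.2.1 ∧ lay k.2.2.1 x < lay k.2.2.1 y ∧ (σ y).2 = k.2.2.2.1 ∧
      (σ x).2 = k.2.2.2.2) (fun y x h => ?_) fun k => ?_)
  · obtain ⟨i, hi⟩ := hSf _ (hψS y x h.1.1)
    have h1 : idx y x / d < 32 := by
      rw [Nat.div_lt_iff_lt_mul hd0]; have := hidx1 y x h.1; omega
    refine ⟨(i, ⟨_, h1⟩, decide (l₀ x < l₀ y), (σ y).2, (σ x).2), h.1, ?_, rfl, ?_, rfl, rfl⟩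
    · rw [adj_eq]; exact hi
    · have h2 : l₀ x ≠ l₀ y := fun e => h.2 ((hl₀ _ _).1 e)
      have := hl₁ y; have := hl₁ x
      by_cases h3 : l₀ x < l₀ y
      · simp only [lay, h3, decide_true, if_true]
      · simp only [lay, h3, decide_false, Bool.false_eq_true, if_false]; omega
  · refine hLT.trans (Ex_ind_mono (isProb_bw hp20 (hp21.trans hq1)) fun ω hω => ?_)
    refine dense_piece hW hn0 hp.le (by linarith) hη0 hηp (t := 2 * M) (le_of_eq ?_) hM0 hns hu.le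
      ?_ ψ hψ (f k.1) (hf k.1) σ (fun 𝒰 h𝒰 j => ?_) _ (fun y x h => h.2.1) (lay k.2.2.1) (hlay _)
      (fun y x h => h.2.2.2.1) _ _ (fun y x h => h.2.2.2.2) (fun y => ?_) Bl hBl ω hω
    · rw [hη]; push_cast; rw [hMR]; field_simp
    · rw [hη]; push_cast; rw [hMR]
      have e4 : (d : ℝ) ≤ 2 * b := by exact_mod_cast (show d ≤ 2 * b by omega)
      have e5 : (4:ℝ) ≤ b ^ 7 := le_trans (by linarith) (le_self_pow₀ hbR1 (by norm_num))
      calc (2 * (b:ℝ) ^ 4 * (d:ℝ) : ℝ) ≤ 2 * (b:ℝ) ^ 4 * (2 * b) := by gcongr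
        _ = 4 * (b:ℝ) ^ 9 * (1 / (b:ℝ) ^ 4) := by field_simp; ring
        _ ≤ (b:ℝ) ^ 7 * (b:ℝ) ^ 9 * (1 / (b:ℝ) ^ 4) := by gcongr
        _ = (b:ℝ) ^ 16 * (1 / (b:ℝ) ^ 4) := by ring
        _ ≤ _ := by gcongr
    · convert hσ1 (k.1, 𝒰) (mem_product.2 ⟨mem_univ _, h𝒰⟩) j
    · refine le_trans (card_le_card_of_injOn (fun x => idx y x % d) (t := range d)
        (fun x _ => by simpa using Nat.mod_lt _ hd0) fun x hx x' hx' h => ?_) (card_range d).le
      simp only [coe_filter, mem_univ, true_and, Set.mem_ofPred_eq] at hx hx' h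
      refine hidx2 y x x' hx.1 hx'.1 ?_
      rw [← Nat.div_add_mod (idx y x) d, ← Nat.div_add_mod (idx y x') d, hx.2.2.1, hx'.2.2.1, h]

theorem main_cover : ∃ k : ℕ, 2 ≤ k ∧ ∀ n : ℕ, ∀ (W : Type) [Fintype W] [DecidableEq W]
    (H : SimpleGraph W), Fintype.card W ≤ n → H ≠ ⊥ → ∀ p : ℝ, 0 < p → ¬ Small (FH n H) p →
    ∃ O : W → W → Prop, (∀ a b, H.Adj a b → O a b ∨ O b a) ∧
      PCov n (min 1 (2 * Lstar * p)) O k := by
  classical
  obtain ⟨b₀, hb₀⟩ : ∃ b₀ : ℕ, 2 ^ 40 ≤ b₀ := ⟨_, le_rfl⟩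
  obtain ⟨mm, hmm, hC⟩ := exists_conv
  refine ⟨b₀ ^ 16 * b₀ ^ 16 + (32 * 200 + (5 * 200 + kd mm)), by omega,
    fun n W _ _ H hW hH p hp hF => ?_⟩
  have hL : 2 ≤ Lstar := by
    unfold Lstar; linarith [Real.one_le_exp (by norm_num : (0:ℝ) ≤ 32)]
  by_cases hp' : Lstar * p ≤ 1 / 2
  swap
  · rw [min_eq_left (by linarith)]
    exact ⟨H.Adj, fun a b h => Or.inl h, PCov.of_fintype hW zero_le_one le_rfl (K := Unit)
      (by simp; omega) (fun _ => H.Adj) (fun y x h => ⟨(), h⟩)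
      fun _ => le_trans (by norm_num) (PE_one hW _ fun y x h => h.ne)⟩
  obtain ⟨hp4, hp20, hp21, hp22⟩ := num_p4 hp hp'
  have hq0 : 0 ≤ Lstar * p := hp20.trans hp21
  have hq : Lstar * p ≤ min 1 (2 * Lstar * p) := le_min (by linarith) (by linarith)
  by_cases hn : n < b₀ ^ 16
  · exact ⟨H.Adj, fun a b h => Or.inl h, PCov.mono hW (by linarith) (le_trans hp22 hq)
      (min_le_left _ _) (le_trans (Nat.mul_le_mul hn.le hn.le) (by omega))
      (small_cover hW hH hp.le (by linarith) hF)⟩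
  have hn' : b₀ ^ 16 ≤ n := not_lt.1 hn
  have hn200 : 200 ≤ n :=
    le_trans (by norm_num) (hb₀.trans ((Nat.le_self_pow (by norm_num) b₀).trans hn'))
  obtain ⟨d', rk, hrk, hdeg, hpd⟩ := exists_degen (by omega) H hp.le (by linarith) hF
  refine ⟨fun y x => H.Adj y x ∧ rk x < rk y, fun a b h => ?_, ?_⟩
  · rcases lt_or_gt_of_ne (hrk.ne h.ne) with h1 | h1
    · exact Or.inr ⟨h.symm, h1⟩
    · exact Or.inl ⟨h, h1⟩
  by_cases hd' : d' ≤ 32
  · exact PCov.mono hW hq0 hq (min_le_left _ _) (by omega) (star_cover hn200 hW hp.le hp' hF _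
      (fun y x h => h.1) rk (fun y x h => h.2) 32 fun y => (hdeg y).trans hd')
  · have hex : ∃ b, n < (b + 1) ^ 16 := ⟨n, (Nat.lt_succ_self n).trans_le
      (Nat.le_self_pow (by norm_num) _)⟩
    have h1 := Nat.find_spec hex
    have h2 : b₀ ≤ Nat.find hex := by
      by_contra hc
      exact absurd (h1.trans_le (Nat.pow_le_pow_left (by omega) 16)) hn
    have h3 : Nat.find hex ^ 16 ≤ n := by
      have := Nat.find_min hex (m := Nat.find hex - 1) (by omega)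
      rw [show Nat.find hex - 1 + 1 = Nat.find hex by omega] at this
      exact not_lt.1 this
    exact PCov.mono hW hq0 hq (min_le_left _ _) (by omega)
      (dense_cover mm hmm hC (hb₀.trans h2) h3 h1 hW hp hp' hF d' (by omega) rk hdeg hpd)

lemma exists_dyadic (hW : Fintype.card W ≤ n) {H : SimpleGraph W} (hH : H ≠ ⊥) :
    ∃ p : ℝ, 0 < p ∧ p ≤ 1 ∧ Small (FH n H) p ∧ ¬ Small (FH n H) (2 * p) := by
  classical
  have hex : ∃ j : ℕ, Small (FH n H) ((1 / 2) ^ j) := by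
    refine ⟨Fintype.card (EdgeSlot n) + 1, small_singletons hH ?_⟩
    have : (Fintype.card (EdgeSlot n) : ℝ) ≤ 2 ^ Fintype.card (EdgeSlot n) := by
      exact_mod_cast Nat.lt_two_pow_self.le
    calc _ ≤ (2:ℝ) ^ Fintype.card (EdgeSlot n) * (1 / 2) ^ (Fintype.card (EdgeSlot n) + 1) := by gcongr
      _ = _ := by rw [pow_succ, ← mul_assoc, ← mul_pow]; norm_num
  have h0 : Nat.find hex ≠ 0 := by
    intro h
    have h1 := Nat.find_spec hex
    rw [h] at h1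
    obtain ⟨G, hG, hc⟩ := h1
    obtain ⟨φ⟩ : Nonempty (W ↪ Fin n) := Function.Embedding.nonempty_of_card_le (by simpa using hW)
    obtain ⟨S, hS, _⟩ := hG univ (mem_FH.2 ⟨φ, φ.injective, fun _ _ _ => mem_univ _⟩)
    simp only [pow_zero, one_pow, sum_const, nsmul_eq_mul, mul_one] at hc
    have : (1:ℝ) ≤ G.card := by exact_mod_cast card_pos.2 ⟨S, hS⟩
    linarith
  refine ⟨_, by positivity, pow_le_one₀ (by norm_num) (by norm_num), Nat.find_spec hex, ?_⟩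
  have := Nat.find_min hex (m := Nat.find hex - 1) (by omega)
  convert this using 2
  conv_lhs => rw [show Nat.find hex = Nat.find hex - 1 + 1 by omega, pow_succ]
  ring

end Crest.Agent.R52
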