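import Crest.Agent.R52.GBasic

/-! Embedding star forests. -/

set_option autoImplicit false
set_option linter.unusedSectionVars false

namespace Crest.Agent.R52

open Finset Crest.Agent.PP Crest.CombinatoricsR.RandomGraph

lemma Ex_fin_succ {κ : Type} [Fintype κ] (w : κ → ℝ) (t : ℕ) (F : (Fin (t + 1) → κ) → ℝ) :
    Ex w F = ∑ k, w k * Ex w (fun ω : Fin t → κ => F (Fin.cons k ω)) := by
  unfold Ex
  simp only [mul_sum]
  rw [← Fintype.sum_prod_type']
  refine (Fintype.sum_equiv (Fin.consEquiv (fun _ => κ)) _ _ fun x => ?_).symm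
  unfold wt
  rw [Fin.prod_univ_succ, mul_assoc]
  rfl

section greedy
variable {ι B κ : Type} [DecidableEq ι] [DecidableEq B] [Fintype κ]
  (N : κ → Finset B) (d : ι → ℕ)

def Succ (t : ℕ) (C : Finset ι) (A : Finset B) (ω : Fin t → κ) : Prop :=
  ∃ (ctr : ι → ℕ) (lv : ι → Finset B), Set.InjOn ctr C ∧
    (∀ i ∈ C, lv i ⊆ A ∧ (lv i).card = d i ∧ ∃ h : ctr i < t, lv i ⊆ N (ω ⟨ctr i, h⟩)) ∧
    ∀ i ∈ C, ∀ j ∈ C, i ≠ j → Disjoint (lv i) (lv j)

def mC (C : Finset ι) (D : ℕ) : ℕ := (C.filter fun i => D ≤ d i).card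

lemma greedy_stars {w : κ → ℝ} (hw : IsProb w) (a₀ : ℕ) (β : ℕ → ℝ)
    (hβ : ∀ D, ∀ A : Finset B, a₀ ≤ A.card → β D ≤ ∑ k, w k * ind (D ≤ (N k ∩ A).card))
    (t : ℕ) (C : Finset ι) (A : Finset B) (hA : a₀ + ∑ i ∈ C, d i ≤ A.card) :
    Ex w (fun ω : Fin t → κ => ind (¬ Succ N d t C A ω)) ≤
      ∑ D ∈ C.image d, 2 ^ mC d C D * (1 - β D / 2) ^ t := by
  induction t generalizing C A with
  | zero =>
    rcases C.eq_empty_or_nonempty with rfl | ⟨i, hi⟩
    · refine Ex_le_const hw fun ω => ?_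
      rw [ind_neg]; · simp
      exact not_not.2 ⟨fun _ => 0, fun _ => ∅, by simp, by simp, by simp⟩
    · refine (Ex_ind_le_one hw _).trans ?_
      refine le_trans ?_ (single_le_sum (f := fun D => (2:ℝ) ^ mC d C D * (1 - β D / 2) ^ 0)
        (fun _ _ => by positivity) (mem_image_of_mem d hi))
      simpa using one_le_pow₀ (by norm_num : (1:ℝ) ≤ 2)
  | succ t ih =>
    have hβ1 : ∀ D, 0 ≤ 1 - β D / 2 := by
      intro D
      have h1 := hβ D A (by omega)
      have h2 : ∑ k, w k * ind (D ≤ (N k ∩ A).card) ≤ ∑ k, w k :=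
        sum_le_sum fun k _ => mul_le_of_le_one_right (hw.nonneg k) (ind_le_one _)
      rw [hw.sum_one] at h2; linarith
    rw [Ex_fin_succ]
    have step : ∀ k, Ex w (fun ω : Fin t → κ => ind (¬ Succ N d (t + 1) C A (Fin.cons k ω))) ≤
        ∑ D ∈ C.image d, 2 ^ mC d C D * (1 - β D / 2) ^ t *
          (1 - ind (D ≤ (N k ∩ A).card) / 2) := by
      intro k
      by_cases hex : ∃ i ∈ C, d i ≤ (N k ∩ A).card
      · obtain ⟨i₀, hi₀, hmax⟩ := exists_max_image (C.filter fun i => d i ≤ (N k ∩ A).card) d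
          (let ⟨i, h1, h2⟩ := hex; ⟨i, mem_filter.2 ⟨h1, h2⟩⟩)
        obtain ⟨hi₀C, hi₀d⟩ := mem_filter.1 hi₀
        obtain ⟨L, hL, hLc⟩ := exists_subset_card_eq hi₀d
        have hLA : L ⊆ A := hL.trans inter_subset_right
        have h1 := ih (C.erase i₀) (A \ L) (by
          rw [card_sdiff_of_subset hLA, hLc]
          rw [← add_sum_erase _ _ hi₀C] at hA
          omega)
        refine le_trans (Ex_ind_mono hw (Q := fun ω => ¬ Succ N d t (C.erase i₀) (A \ L) ω)
          fun ω h hs => h ?_) (h1.trans ?_)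
        · obtain ⟨ctr, lv, h2, h3, h4⟩ := hs
          refine ⟨fun i => if i = i₀ then 0 else ctr i + 1, fun i => if i = i₀ then L else lv i,
            ?_, ?_, ?_⟩
          · intro i hi j hj hij
            by_cases e1 : i = i₀ <;> by_cases e2 : j = i₀
            · rw [e1, e2]
            · simp [e1, e2] at hij
            · simp [e1, e2] at hij
            · simp only [e1, e2, if_false, add_left_inj] at hij
              exact h2 (mem_coe.2 (mem_erase.2 ⟨e1, hi⟩)) (mem_coe.2 (mem_erase.2 ⟨e2, hj⟩)) hij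
          · intro i hi
            by_cases e1 : i = i₀
            · simp only [e1, if_true]
              exact ⟨hLA, hLc, by omega, hL.trans inter_subset_left⟩
            · simp only [e1, if_false]
              obtain ⟨h5, h6, h7, h8⟩ := h3 i (mem_erase.2 ⟨e1, hi⟩)
              exact ⟨h5.trans sdiff_subset, h6, by omega, h8⟩
          · intro i hi j hj hij
            by_cases e1 : i = i₀ <;> by_cases e2 : j = i₀
            · exact absurd (e1.trans e2.symm) hij
            · simp only [e1, e2, if_true, if_false]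
              exact disjoint_of_subset_right (h3 j (mem_erase.2 ⟨e2, hj⟩)).1 disjoint_sdiff
            · simp only [e1, e2, if_true, if_false]
              exact disjoint_of_subset_left (h3 i (mem_erase.2 ⟨e1, hi⟩)).1 sdiff_disjoint
            · simp only [e1, e2, if_false]
              exact h4 i (mem_erase.2 ⟨e1, hi⟩) j (mem_erase.2 ⟨e2, hj⟩) hij
        · refine le_trans (sum_le_sum_of_subset_of_nonneg (image_subset_image (erase_subset i₀ C))
            fun D _ _ => mul_nonneg (by positivity) (pow_nonneg (hβ1 D) _)) (sum_le_sum fun D hD => ?_)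
          rw [mul_right_comm]
          refine mul_le_mul_of_nonneg_right ?_ (pow_nonneg (hβ1 D) _)
          by_cases hDk : D ≤ (N k ∩ A).card
          · obtain ⟨j, hj, rfl⟩ := mem_image.1 hD
            have h5 : d j ≤ d i₀ := hmax j (mem_filter.2 ⟨hj, hDk⟩)
            have h6 : mC d C (d j) = mC d (C.erase i₀) (d j) + 1 := by
              unfold mC
              rw [filter_erase, card_erase_add_one (mem_filter.2 ⟨hi₀C, h5⟩)]
            rw [h6, ind_pos hDk, pow_succ]; linarith
          · rw [ind_neg hDk]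
            simp only [zero_div, sub_zero, mul_one]
            exact pow_le_pow_right₀ (by norm_num)
              (card_le_card (filter_subset_filter _ (erase_subset _ _)))
      · refine le_trans (Ex_ind_mono hw (Q := fun ω => ¬ Succ N d t C A ω)
          fun ω h hs => h ?_) ((ih C A hA).trans (le_of_eq ?_))
        · obtain ⟨ctr, lv, h2, h3, h4⟩ := hs
          refine ⟨fun i => ctr i + 1, lv, fun i hi j hj hij => h2 hi hj (by simpa using hij),
            fun i hi => ?_, h4⟩
          obtain ⟨h5, h6, h7, h8⟩ := h3 i hi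
          exact ⟨h5, h6, Nat.succ_lt_succ h7, h8⟩
        · refine sum_congr rfl fun D hD => ?_
          obtain ⟨j, hj, rfl⟩ := mem_image.1 hD
          rw [ind_neg (fun h => hex ⟨j, hj, h⟩)]; simp
    refine (sum_le_sum fun k _ => mul_le_mul_of_nonneg_left (step k) (hw.nonneg k)).trans ?_
    simp only [mul_sum]
    rw [sum_comm]
    refine sum_le_sum fun D _ => ?_
    have h1 := hβ D A (by omega)
    have e : ∑ k, w k * (2 ^ mC d C D * (1 - β D / 2) ^ t * (1 - ind (D ≤ (N k ∩ A).card) / 2)) =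
        2 ^ mC d C D * (1 - β D / 2) ^ t *
          (∑ k, w k - (∑ k, w k * ind (D ≤ (N k ∩ A).card)) / 2) := by
      rw [sum_div, ← sum_sub_distrib, mul_sum]
      exact sum_congr rfl fun k _ => by ring
    rw [e, hw.sum_one, pow_succ, ← mul_assoc]
    exact mul_le_mul_of_nonneg_left (by linarith) (mul_nonneg (by positivity) (pow_nonneg (hβ1 D) _))

end greedy

section binom
variable {B : Type} [Fintype B] [DecidableEq B]

lemma binom_lower_large {p : ℝ} (h0 : 0 ≤ p) (h1 : p ≤ 1) (a₀ D : ℕ) (A : Finset B)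
    (hA : a₀ ≤ A.card) : (a₀.choose D : ℝ) * p ^ D * (1 - p) ^ a₀ ≤
      Ex (bw p) (fun k : B → Bool => ind (D ≤ (supp k ∩ A).card)) := by
  obtain ⟨A', hA', hc⟩ := exists_subset_card_eq hA
  have hw := isProb_bw h0 h1
  have key : ∀ T ∈ powersetCard D A', p ^ D * (1 - p) ^ a₀ ≤
      Ex (bw p) (fun k : B → Bool => ind (supp k ∩ A' = T)) := by
    intro T hT
    obtain ⟨hT1, hT2⟩ := mem_powersetCard.1 hT
    have e1 := Ex_prod_on hw A' (fun x b => ind (b = decide (x ∈ T)))
    simp only [← ind_forall] at e1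
    have e2 : ∏ x ∈ A', ∑ b, bw p b * ind (b = decide (x ∈ T)) = p ^ D * (1 - p) ^ (a₀ - D) := by
      rw [← prod_sdiff hT1, mul_comm, ← hT2, ← hc, ← card_sdiff_of_subset hT1, ← prod_const,
        ← prod_const]
      congr 1
      · exact prod_congr rfl fun x hx => by simp [bw, ind, hx]
      · exact prod_congr rfl fun x hx => by simp [bw, ind, (mem_sdiff.1 hx).2]
    refine le_trans ?_ ((e1.trans e2).ge.trans (Ex_ind_mono hw fun k hk => ?_))
    · exact mul_le_mul_of_nonneg_left (pow_le_pow_of_le_one (by linarith) (by linarith) (by omega))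
        (by positivity)
    · ext x
      simp only [supp, mem_inter, mem_filter, mem_univ, true_and]
      constructor
      · rintro ⟨h1, h2⟩; simpa [h1] using hk x h2
      · intro h; exact ⟨by simpa [h] using hk x (hT1 h), hT1 h⟩
  have h2 := sum_le_sum key
  rw [sum_const, card_powersetCard, hc, nsmul_eq_mul, ← mul_assoc, ← Ex_sum] at h2
  refine h2.trans (Ex_mono hw fun k => ?_)
  by_cases h : supp k ∩ A' ∈ powersetCard D A'
  · rw [sum_eq_single_of_mem _ h (fun T _ hT => ind_neg (Ne.symm hT)), ind_pos rfl, ind_pos]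
    rw [← (mem_powersetCard.1 h).2]
    exact card_le_card (inter_subset_inter_left hA')
  · rw [sum_eq_zero fun T hT => ind_neg fun e : supp k ∩ A' = T => h (e ▸ hT)]
    exact ind_nonneg _

lemma binom_lower_small {p : ℝ} (h0 : 0 ≤ p) (h1 : p ≤ 1) (a₀ D : ℕ) (A : Finset B)
    (hA : a₀ ≤ A.card) (hD : (D : ℝ) + 1 ≤ a₀ * p / 2) :
    1 / 2 ≤ Ex (bw p) (fun k : B → Bool => ind (D ≤ (supp k ∩ A).card)) := by
  have hw := isProb_bw h0 h1
  have h2 := chernoff_lower hw A (fun _ b => b = true) D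
  have e1 : ∑ k, bw p k * ind (k = true) = p := by simp [bw, ind]
  simp only [e1, sum_const, nsmul_eq_mul] at h2
  have h3 : Real.exp (D - A.card * p / 2) ≤ 1 / 2 := by
    have : (a₀ : ℝ) ≤ A.card := by exact_mod_cast hA
    refine (Real.exp_le_exp.2 (show _ ≤ -1 by nlinarith)).trans ?_
    linarith [Real.exp_neg_one_lt_d9]
  have h4 := Ex_ind_not hw (fun k : B → Bool => D ≤ (supp k ∩ A).card)
  have h5 : Ex (bw p) (fun k : B → Bool => ind (¬ D ≤ (supp k ∩ A).card)) ≤ _ :=
    Ex_ind_mono hw (Q := fun k => ∑ i ∈ A, ind (k i = true) ≤ D) fun k hk => by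
      rw [← card_filter_eq_sum_ind]
      have : A.filter (fun i => k i = true) = supp k ∩ A := by ext x; simp [supp, and_comm]
      rw [this]; exact_mod_cast (not_le.1 hk).le
  linarith

end binom

lemma sum_exp_le (S : Finset ℕ) (hS : ∀ D ∈ S, 1 ≤ D) :
    ∑ D ∈ S, Real.exp (-(D + 1 : ℝ)) ≤ 1 / 2 := by
  have h1 : ∀ D ∈ S, Real.exp (-(D + 1 : ℝ)) ≤ rho D := by
    intro D _
    unfold rho
    rw [show (-(D + 1 : ℝ)) = ((D + 1 : ℕ) : ℝ) * (-1) by push_cast; ring, Real.exp_nat_mul]
    exact pow_le_pow_left₀ (Real.exp_pos _).le (by linarith [Real.exp_neg_one_lt_d9]) _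
  refine (sum_le_sum h1).trans ?_
  have h2 : S ⊆ (range (S.sup id + 1)).erase 0 := fun D hD =>
    mem_erase.2 ⟨by have := hS D hD; omega, mem_range.2 (Nat.lt_succ_of_le (le_sup (f := id) hD))⟩
  refine (sum_le_sum_of_subset_of_nonneg h2 fun D _ _ => (rho_pos D).le).trans ?_
  have h3 := sum_rho_le (S.sup id + 1)
  rw [← add_sum_erase _ _ (mem_range.2 (Nat.succ_pos _))] at h3
  have : rho 0 = 1 / 2 := by simp [rho]
  linarith

/-- the constant for star forests -/
noncomputable def Lstar : ℝ := 8000 * Real.exp 32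

lemma star_numeric {n m D : ℕ} {p : ℝ} (hn : 200 ≤ n) (hp : 0 ≤ p) (hp' : Lstar * p ≤ 1 / 2)
    (hm : 1 ≤ m) (hD : 1 ≤ D) (hDn : 20 * D ≤ n) (hlam : n * (Lstar * p) < 32 * D)
    (hfm : 1 / 2 < ((n * n.choose D).choose m : ℝ) * p ^ (m * D)) :
    2 * m + 2 * (D + 1) ≤
      (n / 2 : ℕ) * (((n / 4).choose D : ℝ) * (Lstar * p) ^ D * (1 - Lstar * p) ^ (n / 4)) := by
  set X : ℝ := n * n.choose D * p ^ D with hX
  have hX0 : 0 ≤ X := by positivity
  have hm0 : (0:ℝ) < m := by exact_mod_cast hm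
  have h1 : (m : ℝ) / 6 ≤ X := by
    by_contra hc
    have e1 : ((n * n.choose D).choose m : ℝ) ≤ ((n * n.choose D : ℕ) : ℝ) ^ m / m.factorial :=
      Nat.choose_le_pow_div _ _
    have e2 : (m : ℝ) ^ m / m.factorial ≤ Real.exp m := Real.pow_div_factorial_le_exp _ hm0.le _
    have e3 : Real.exp m ≤ 3 ^ m := by
      rw [← mul_one (m : ℝ), Real.exp_nat_mul]
      exact pow_le_pow_left₀ (Real.exp_pos _).le (by linarith [Real.exp_one_lt_d9]) _
    have e4 : X ^ m ≤ (m / 6) ^ m := pow_le_pow_left₀ hX0 (not_le.1 hc).le _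
    have e5 : ((n * n.choose D).choose m : ℝ) * p ^ (m * D) ≤ X ^ m / m.factorial := by
      rw [hX, mul_pow, ← pow_mul, mul_comm D m, mul_div_right_comm]
      push_cast at e1
      exact mul_le_mul_of_nonneg_right e1 (by positivity)
    have e6 : X ^ m / m.factorial ≤ (1 / 2) ^ m := by
      calc _ ≤ ((m:ℝ) / 6) ^ m / m.factorial := by gcongr
        _ = (m : ℝ) ^ m / m.factorial * (1 / 6) ^ m := by rw [div_eq_mul_one_div (m:ℝ), mul_pow]; ring
        _ ≤ 3 ^ m * (1 / 6) ^ m := by gcongr; exact e2.trans e3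
        _ = _ := by rw [← mul_pow]; norm_num
    have e7 : ((1:ℝ) / 2) ^ m ≤ 1 / 2 := pow_le_of_le_one (by norm_num) (by norm_num) (by omega)
    linarith
  have h2 : (n.choose D : ℝ) ≤ 8 ^ D * (n / 4).choose D := by
    have e1 : (n.choose D : ℝ) ≤ (n : ℝ) ^ D / D.factorial := Nat.choose_le_pow_div _ _
    have e2 : (((n / 4 + 1 - D : ℕ) : ℝ) ^ D) / D.factorial ≤ (n / 4).choose D :=
      Nat.pow_le_choose _ _
    have e3 : (n : ℝ) ≤ 8 * ((n / 4 + 1 - D : ℕ) : ℝ) := by
      exact_mod_cast (show n ≤ 8 * (n / 4 + 1 - D) by omega)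
    calc _ ≤ (n : ℝ) ^ D / D.factorial := e1
      _ ≤ (8 * ((n / 4 + 1 - D : ℕ) : ℝ)) ^ D / D.factorial := by gcongr
      _ = 8 ^ D * ((((n / 4 + 1 - D : ℕ) : ℝ) ^ D) / D.factorial) := by rw [mul_pow]; ring
      _ ≤ _ := by gcongr
  have hL : 0 < Lstar := by unfold Lstar; positivity
  set q := Lstar * p with hq
  have hq0 : 0 ≤ q := by positivity
  have h3 : Real.exp (-32) ^ D ≤ (1 - q) ^ (n / 4) := by
    have e1 : Real.exp (-(2 * q)) ≤ 1 - q := by
      have := Real.add_one_le_exp (2 * q)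
      rw [Real.exp_neg, inv_le_iff_one_le_mul₀ (Real.exp_pos _)]
      nlinarith
    refine le_trans ?_ (pow_le_pow_left₀ (Real.exp_pos _).le e1 _)
    rw [← Real.exp_nat_mul, ← Real.exp_nat_mul]
    refine Real.exp_le_exp.2 ?_
    have : ((n / 4 : ℕ) : ℝ) ≤ n := by exact_mod_cast Nat.div_le_self _ _
    have h4 : ((n / 4 : ℕ) : ℝ) * 4 ≤ n := by exact_mod_cast Nat.div_mul_le_self _ _
    nlinarith
  have h4 : (n : ℝ) / 4 ≤ (n / 2 : ℕ) := by
    rw [div_le_iff₀ (by norm_num)]
    exact_mod_cast (show n ≤ n / 2 * 4 by omega)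
  have h5 : (1 + 999 * D : ℝ) ≤ 1000 ^ D := by
    have := one_add_mul_le_pow (by norm_num : (-2:ℝ) ≤ 999) D
    norm_num at this ⊢; linarith
  have h6 : q ^ D * Real.exp (-32) ^ D = 8 ^ D * 1000 ^ D * p ^ D := by
    rw [← mul_pow, ← mul_pow, ← mul_pow, hq]
    congr 1
    unfold Lstar
    rw [Real.exp_neg]; field_simp; ring
  have hD1 : (1:ℝ) ≤ D := by exact_mod_cast hD
  have hm1 : (1:ℝ) ≤ m := by exact_mod_cast hm
  calc (2 * m + 2 * (D + 1) : ℝ) ≤ (m / 6) * (1 + 999 * D) / 4 := by nlinarith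
    _ ≤ X * 1000 ^ D / 4 := by gcongr
    _ = (n / 4) * (n.choose D * (1000 ^ D * p ^ D)) := by rw [hX]; ring
    _ ≤ (n / 2 : ℕ) * ((8 ^ D * (n / 4).choose D) * (1000 ^ D * p ^ D)) := by gcongr
    _ = (n / 2 : ℕ) * ((n / 4).choose D * q ^ D * Real.exp (-32) ^ D) := by
        rw [mul_assoc ((n / 4).choose D : ℝ), h6]; ring
    _ ≤ _ := by gcongr

/-- star forests with few leaves appear at a constant multiple of the expectation threshold -/
theorem star_emb {n : ℕ} (hn : 200 ≤ n) {W : Type} [Fintype W] [DecidableEq W]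
    (hW : Fintype.card W ≤ n) {H : SimpleGraph W} {p : ℝ} (hp : 0 ≤ p) (hp' : Lstar * p ≤ 1 / 2)
    (hF : ¬ Small (FH n H) p) (E : W → W → Prop) (hEH : ∀ y x, E y x → H.Adj y x)
    (hfun : ∀ y x x', E y x → E y x' → x = x') (hlc : ∀ y x z, E y x → ¬ E x z)
    (Lf : Finset W) (hLf : ∀ y x, E y x → y ∈ Lf) (hLn : 50 * Lf.card ≤ n) :
    1 / 2 ≤ PE n (Lstar * p) E := by
  classical
  have hL : 0 < Lstar := by unfold Lstar; positivity
  set q := Lstar * p with hq
  have hq0 : 0 ≤ q := by positivity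
  have hq1 : q ≤ 1 := by linarith
  let lf : W → Finset W := fun x => univ.filter fun y => E y x
  let C : Finset W := univ.filter fun x => ∃ y, E y x
  let d : W → ℕ := fun x => (lf x).card
  have hsum : ∑ x ∈ C, d x ≤ Lf.card := by
    rw [← card_biUnion]
    · refine card_le_card fun y hy => ?_
      obtain ⟨x, _, h⟩ := mem_biUnion.1 hy
      exact hLf y x (mem_filter.1 h).2
    · intro x _ x' _ hxx
      exact disjoint_left.2 fun y h1 h2 => hxx (hfun y x x' (mem_filter.1 h1).2 (mem_filter.1 h2).2)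
  have hd1 : ∀ x ∈ C, 1 ≤ d x := fun x hx =>
    let ⟨y, hy⟩ := (mem_filter.1 hx).2; card_pos.2 ⟨y, mem_filter.2 ⟨mem_univ _, hy⟩⟩
  set t := n / 2 with ht
  let z : Fin t → Fin n := fun i => ⟨i, by omega⟩
  let a : Fin (n - t) → Fin n := fun j => ⟨t + j, by omega⟩
  have hz : Function.Injective z := fun i j h => Fin.ext (by simpa [z] using h)
  have ha : Function.Injective a := fun i j h => Fin.ext (by simpa [a] using h)
  have hza : ∀ i j, z i ≠ a j := fun i j h => by
    have := congrArg Fin.val h; simp only [z, a] at this; omega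
  let β : ℕ → ℝ := fun D => if (D : ℝ) + 1 ≤ (n / 4 : ℕ) * q / 2 then 1 / 2 else
    ((n / 4).choose D : ℝ) * q ^ D * (1 - q) ^ (n / 4)
  have hG := greedy_stars (supp (α := Fin (n - t))) d (isProb_wt (isProb_bw hq0 hq1)) (n / 4) β
    (fun D A hA => by
      simp only [β]; split_ifs with h
      · exact binom_lower_small hq0 hq1 _ D A hA h
      · exact binom_lower_large hq0 hq1 _ D A hA) t C univ (by
        rw [card_univ, Fintype.card_fin]; omega)
  rw [← Ex_nbhd hq0 hq1 z a hz ha hza] at hG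
  have hbound : ∑ D ∈ C.image d, 2 ^ mC d C D * (1 - β D / 2) ^ t ≤ 1 / 2 := by
    refine le_trans (sum_le_sum fun D hD => ?_) (sum_exp_le (C.image d) fun D hD => ?_)
    · obtain ⟨x, hx, rfl⟩ := mem_image.1 hD
      set m := mC d C (d x) with hm
      have hm1 : 1 ≤ m := card_pos.2 ⟨x, mem_filter.2 ⟨hx, le_rfl⟩⟩
      have hmC : m ≤ Lf.card := by
        refine le_trans (card_filter_le _ _) (le_trans ?_ hsum)
        rw [card_eq_sum_ones]; exact sum_le_sum hd1
      have hdx : d x ≤ Lf.card :=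
        (single_le_sum (f := d) (fun _ _ => Nat.zero_le _) hx).trans hsum
      have hkey : 2 * m + 2 * (d x + 1 : ℝ) ≤ t * β (d x) := by
        simp only [β]; split_ifs with h
        · have : 4 * m + 4 * (d x + 1) ≤ t := by omega
          have : (4 * m + 4 * (d x + 1) : ℝ) ≤ t := by exact_mod_cast this
          linarith
        · refine star_numeric hn hp hp' hm1 (hd1 x hx) (by omega) ?_ ?_
          · have h1 : (n : ℝ) ≤ 8 * (n / 4 : ℕ) := by exact_mod_cast (show n ≤ 8 * (n / 4) by omega)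
            have h2 : (1:ℝ) ≤ d x := by exact_mod_cast hd1 x hx
            rw [← hq]; nlinarith
          · have hc : ∀ c ∈ C.filter (fun i => d x ≤ d i), ∃ L ⊆ lf c, L.card = d x :=
              fun c hc => exists_subset_card_eq (mem_filter.1 hc).2
            choose! L hL1 hL2 using hc
            refine fm_stars hp hF (C.filter (fun i => d x ≤ d i)) L (d x) fun c hc =>
              ⟨hL2 c hc, fun y hy => ?_⟩
            have hyc := (mem_filter.1 (hL1 c hc hy)).2
            refine ⟨hEH y c hyc, fun h => ?_⟩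
            obtain ⟨y', hy'⟩ := (mem_filter.1 (mem_filter.1 h).1).2
            exact hlc y' y c hy' hyc
      have hβ1 : 0 ≤ 1 - β (d x) / 2 := by
        simp only [β]; split_ifs with h
        · norm_num
        · have := (binom_lower_large hq0 hq1 (n / 4) (d x) (univ : Finset (Fin n)) (by
            rw [card_univ, Fintype.card_fin]; omega)).trans (Ex_ind_le_one (isProb_bw hq0 hq1) _)
          linarith
      calc (2:ℝ) ^ m * (1 - β (d x) / 2) ^ t ≤ Real.exp 1 ^ m * Real.exp (-(β (d x) / 2)) ^ t := by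
            gcongr
            · linarith [Real.exp_one_gt_d9]
            · linarith [Real.add_one_le_exp (-(β (d x) / 2))]
        _ ≤ _ := by
            rw [← Real.exp_nat_mul, ← Real.exp_nat_mul, ← Real.exp_add]
            exact Real.exp_le_exp.2 (by linarith)
    · obtain ⟨x, hx, rfl⟩ := mem_image.1 hD
      exact hd1 x hx
  rw [Ex_ind_not (isProb_bw hq0 hq1)] at hG
  refine le_trans (by linarith) (Ex_ind_mono (isProb_bw hq0 hq1)
    (P := fun ω => Succ supp d t C univ (fun i j => adj ω (z i) (a j))) fun ω hω => ?_)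
  obtain ⟨ctr, lv, h1, h2, h3⟩ := hω
  have hf : ∀ x ∈ C, ∃ f : W → Fin (n - t), Set.InjOn f (lf x) ∧ ∀ y ∈ lf x, f y ∈ lv x := by
    intro x hx
    have e := Finset.equivOfCardEq (h2 x hx).2.1.symm
    refine ⟨fun y => if h : y ∈ lf x then e ⟨y, h⟩ else ⟨0, by omega⟩, fun y hy y' hy' h => ?_,
      fun y hy => ?_⟩
    · simp only [dif_pos (mem_coe.1 hy), dif_pos (mem_coe.1 hy')] at h
      exact congrArg Subtype.val (e.injective (Subtype.ext h))
    · simp only [dif_pos hy]; exact (e ⟨y, hy⟩).2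
  have : Nonempty (Fin (n - t)) := ⟨⟨0, by omega⟩⟩
  choose! f hf1 hf2 using hf
  have hd : ∀ y, (∃ x, E y x) → ∃ x, E y x := fun _ h => h
  choose! hd hhd using hd
  have hhd' : ∀ y x, E y x → hd y = x := fun y x h => hfun y _ _ (hhd y ⟨x, h⟩) h
  have hC : ∀ y x, E y x → x ∈ C := fun y x h => mem_filter.2 ⟨mem_univ _, y, h⟩
  have hnC : ∀ y x, E y x → y ∉ C := fun y x h hc =>
    let ⟨y', hy'⟩ := (mem_filter.1 hc).2; hlc y' y x hy' h
  have hlf : ∀ y x, E y x → y ∈ lf x := fun y x h => mem_filter.2 ⟨mem_univ _, h⟩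
  let φ : W → Fin n := fun v => if h : v ∈ C then z ⟨ctr v, (h2 v h).2.2.1⟩ else a (f (hd v) v)
  refine emb_of_injOn hW (univ.filter fun v => v ∈ C ∨ ∃ x, E v x) (fun y x h => ?_) φ ?_ ?_
  · simp only [mem_filter, mem_univ, true_and]
    exact ⟨Or.inr ⟨x, h⟩, Or.inl (hC y x h)⟩
  · intro v hv v' hv' h
    simp only [coe_filter, mem_univ, true_and, Set.mem_ofPred_eq] at hv hv'
    by_cases e1 : v ∈ C <;> by_cases e2 : v' ∈ C
    · simp only [φ, dif_pos e1, dif_pos e2] at h
      exact h1 e1 e2 (congrArg Fin.val (hz h))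
    · simp only [φ, dif_pos e1, dif_neg e2] at h
      exact absurd h (hza _ _)
    · simp only [φ, dif_neg e1, dif_pos e2] at h
      exact absurd h.symm (hza _ _)
    · simp only [φ, dif_neg e1, dif_neg e2] at h
      obtain ⟨x, hx⟩ := hv.resolve_left e1
      obtain ⟨x', hx'⟩ := hv'.resolve_left e2
      rw [hhd' v x hx, hhd' v' x' hx'] at h
      have h' := ha h
      by_cases e3 : x = x'
      · subst e3
        exact hf1 x (hC _ _ hx) (hlf _ _ hx) (hlf _ _ hx') h'
      · exact absurd (h' ▸ hf2 x (hC _ _ hx) v (hlf _ _ hx))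
          (disjoint_right.1 (h3 x (hC _ _ hx) x' (hC _ _ hx') e3)
            (hf2 x' (hC _ _ hx') v' (hlf _ _ hx')))
  · intro y x h
    simp only [φ, dif_pos (hC y x h), dif_neg (hnC y x h), hhd' y x h]
    have := (h2 x (hC y x h)).2.2.2 (hf2 x (hC y x h) y (hlf y x h))
    simp only [supp, mem_filter, mem_univ, true_and] at this
    exact adj_symm this

end Crest.Agent.R52
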